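import Crest.Agent.R178B.Intf

/-!
Row 178 (S0268), version B: facts about the filtrations of `U` and `RR`.
-/

set_option autoImplicit false
set_option linter.all false

open scoped Matrix.Module

noncomputable section

namespace Crest.Agent.R178B

open Matrix

lemma U.one_mem_gens : (1 : U) ∈ U.gens := Submodule.subset_span (Or.inl rfl)
lemma U.g_mem_gens (x : Gen) : U.g x ∈ U.gens := Submodule.subset_span (Or.inr ⟨x, rfl⟩)

lemma U.gens_pow_mono {m n : ℕ} (h : m ≤ n) : U.gens ^ m ≤ U.gens ^ n := by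
  induction n, h using Nat.le_induction with
  | base => exact le_rfl
  | succ n hmn ih =>
    refine ih.trans ?_
    intro x hx
    rw [pow_succ, ← mul_one x]
    exact Submodule.mul_mem_mul hx U.one_mem_gens

lemma U.fil_of_nonneg {i : ℤ} (h : 0 ≤ i) : U.fil i = U.gens ^ i.toNat := if_pos h
lemma U.fil_natCast (n : ℕ) : U.fil n = U.gens ^ n := by
  rw [U.fil_of_nonneg (by positivity)]; simp
lemma U.fil_neg {i : ℤ} (h : i < 0) : U.fil i = ⊥ := if_neg (by omega)

lemma U.fil_mono {i j : ℤ} (h : i ≤ j) : U.fil i ≤ U.fil j := by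
  by_cases hi : 0 ≤ i
  · rw [U.fil_of_nonneg hi, U.fil_of_nonneg (hi.trans h)]
    exact U.gens_pow_mono (Int.toNat_le_toNat h)
  · rw [U.fil_neg (by omega)]; exact bot_le

lemma U.mul_mem {i j : ℤ} {u v : U} (hu : u ∈ U.fil i) (hv : v ∈ U.fil j) :
    u * v ∈ U.fil (i + j) := by
  by_cases hi : 0 ≤ i
  · by_cases hj : 0 ≤ j
    · rw [U.fil_of_nonneg hi] at hu
      rw [U.fil_of_nonneg hj] at hv
      rw [U.fil_of_nonneg (by omega), Int.toNat_add hi hj, pow_add]
      exact Submodule.mul_mem_mul hu hv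
    · rw [U.fil_neg (by omega)] at hv
      rw [(Submodule.mem_bot ℂ).1 hv, mul_zero]; exact Submodule.zero_mem _
  · rw [U.fil_neg (by omega)] at hu
    rw [(Submodule.mem_bot ℂ).1 hu, zero_mul]; exact Submodule.zero_mem _

lemma U.one_mem : (1 : U) ∈ U.fil 0 := by
  rw [U.fil_of_nonneg le_rfl, Int.toNat_zero, pow_zero]
  exact Submodule.one_le.1 le_rfl


lemma U.fil_one : U.fil 1 = U.gens := by
  rw [U.fil_of_nonneg (by norm_num)]; simp

lemma U.one_mem' {i : ℤ} (h : 0 ≤ i) : (1 : U) ∈ U.fil i := U.fil_mono h U.one_mem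

lemma U.g_mem (x : Gen) : U.g x ∈ U.fil 1 := by rw [U.fil_one]; exact U.g_mem_gens x

instance : Finite Gen := by
  refine Finite.of_injective (fun x : Gen => (Gen.pick 0 1 2 3 x : Fin 4)) ?_
  intro x y h
  cases x <;> cases y <;> first | rfl | (exfalso; revert h; decide)

lemma U.gens_fg : U.gens.FG :=
  Submodule.fg_span ((Set.finite_singleton _).union (Set.finite_range _))

lemma U.fil_fg (i : ℤ) : (U.fil i).FG := by
  by_cases hi : 0 ≤ i
  · rw [U.fil_of_nonneg hi]; exact U.gens_fg.pow _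
  · rw [U.fil_neg (by omega)]; exact Submodule.fg_bot

/-- Induction principle for the filtration. -/
lemma U.fil_induction {p : (i : ℤ) → U → Prop}
    (h0 : ∀ i, p i 0)
    (hadd : ∀ i u v, p i u → p i v → p i (u + v))
    (hsmul : ∀ i (c : ℂ) u, p i u → p i (c • u))
    (hone : p 0 1)
    (hstep : ∀ i, 0 ≤ i → ∀ u, p i u → p (i + 1) u)
    (hgen : ∀ i, 0 ≤ i → ∀ (x : Gen) u, p i u → p (i + 1) (U.g x * u))
    {i : ℤ} {u : U} (hu : u ∈ U.fil i) : p i u := by
  by_cases hi : 0 ≤ i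
  swap
  · rw [U.fil_neg (by omega)] at hu
    rw [(Submodule.mem_bot ℂ).1 hu]; exact h0 i
  obtain ⟨n, rfl⟩ := Int.eq_ofNat_of_zero_le hi
  clear hi
  rw [U.fil_natCast] at hu
  induction n generalizing u with
  | zero =>
    rw [pow_zero, Submodule.mem_one] at hu
    obtain ⟨c, rfl⟩ := hu
    rw [Algebra.algebraMap_eq_smul_one]
    exact hsmul _ _ _ hone
  | succ n ih =>
    rw [pow_succ'] at hu
    refine Submodule.mul_induction_on hu ?_ ?_
    · intro a ha b hb
      have hb' := ih hb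
      refine Submodule.span_induction (p := fun a _ => p ((n + 1 : ℕ) : ℤ) (a * b)) ?_ ?_ ?_ ?_ ha
      · rintro x (hx | ⟨g, rfl⟩)
        · rw [Set.mem_singleton_iff.1 hx, one_mul]
          have := hstep n (by positivity) b hb'
          push_cast; exact this
        · have := hgen n (by positivity) g b hb'
          push_cast; exact this
      · rw [zero_mul]; exact h0 _
      · intro x y _ _ hx hy
        rw [add_mul]; exact hadd _ _ _ hx hy
      · intro c x _ hx
        rw [smul_mul_assoc]; exact hsmul _ _ _ hx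
    · intro x y hx hy
      exact hadd _ _ _ hx hy

lemma Δ_mem {i : ℤ} {u : U} (hu : u ∈ U.fil i) (k l : Fin 2) : Δ u k l ∈ U.fil i := by
  revert k l
  refine U.fil_induction (p := fun i u => ∀ k l, Δ u k l ∈ U.fil i) ?_ ?_ ?_ ?_ ?_ ?_ hu
  · intro i k l; rw [map_zero]; exact Submodule.zero_mem _
  · intro i u v hu hv k l; rw [map_add]; exact Submodule.add_mem _ (hu k l) (hv k l)
  · intro i c u hu k l; rw [map_smul]; exact Submodule.smul_mem _ _ (hu k l)
  · intro k l; rw [map_one, Matrix.one_apply]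
    split_ifs
    · exact U.one_mem
    · exact Submodule.zero_mem _
  · intro i hi u hu k l; exact U.fil_mono (by omega) (hu k l)
  · intro i hi x u hu k l
    rw [map_mul, Matrix.mul_apply]
    refine Submodule.sum_mem _ fun m _ => ?_
    have h1 : Δ (U.g x) k m ∈ U.fil 1 := by
      have e1 : (1 : U) ∈ U.fil 1 := U.one_mem' (by norm_num)
      have z1 : (0 : U) ∈ U.fil 1 := Submodule.zero_mem _
      cases x
      · rw [show Δ (U.g .a) = Δa from U.lift_a _]
        fin_cases k <;> fin_cases m <;> simp [Δa] <;>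
          first | exact U.g_mem _ | exact Submodule.sub_mem _ (U.g_mem _) e1
      · rw [show Δ (U.g .d) = Δd from U.lift_d _]
        fin_cases k <;> fin_cases m <;> simp [Δd] <;>
          first | exact U.g_mem _ | exact Submodule.sub_mem _ (U.g_mem _) e1
      · rw [show Δ (U.g .e) = Δe from U.lift_e _]
        fin_cases k <;> fin_cases m <;> simp [Δe] <;>
          first | exact U.g_mem _ | exact e1
      · rw [show Δ (U.g .f) = Δf from U.lift_f _]
        fin_cases k <;> fin_cases m <;> simp [Δf] <;>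
          first | exact U.g_mem _ | exact e1
    have := U.mul_mem h1 (hu m l)
    rwa [add_comm] at this

lemma θ_mem (k l : Fin 2) : θ k l ∈ U.fil 1 := by
  have e1 : (1 : U) ∈ U.fil 1 := U.one_mem' (by norm_num)
  fin_cases k <;> fin_cases l <;> simp [θ] <;>
    first | exact U.g_mem _ | exact Submodule.add_mem _ (U.g_mem _) e1

lemma θΔ_mem {i : ℤ} {u : U} (hu : u ∈ U.fil i) (k l : Fin 2) :
    (θ * Δ u) k l ∈ U.fil (i + 1) := by
  rw [Matrix.mul_apply]
  refine Submodule.sum_mem _ fun m _ => ?_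
  rw [add_comm]
  exact U.mul_mem (θ_mem _ _) (Δ_mem hu _ _)

lemma FUM.mono' (N : FUM) {i j : ℤ} (h : i ≤ j) : N.fil i ≤ N.fil j := by
  obtain ⟨n, rfl⟩ := Int.le.dest h
  clear h
  induction n with
  | zero => simp
  | succ n ih =>
    refine ih.trans ?_
    have := N.mono (i + n)
    push_cast
    rwa [← add_assoc]

lemma FUM.smul_mem (N : FUM) {i j : ℤ} {u : U} {x : N.carrier} (hu : u ∈ U.fil i)
    (hx : x ∈ N.fil j) : u • x ∈ N.fil (i + j) := by
  revert x j
  refine U.fil_induction (p := fun i u => ∀ {j : ℤ} {x : N.carrier}, x ∈ N.fil j →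
    u • x ∈ N.fil (i + j)) ?_ ?_ ?_ ?_ ?_ ?_ hu
  · intro i j x hx; rw [zero_smul]; exact Submodule.zero_mem _
  · intro i u v hu hv j x hx; rw [add_smul]; exact Submodule.add_mem _ (hu hx) (hv hx)
  · intro i c u hu j x hx; rw [smul_assoc]; exact Submodule.smul_mem _ _ (hu hx)
  · intro j x hx; rw [one_smul, zero_add]; exact hx
  · intro i hi u hu j x hx; exact N.mono' (by omega) (hu hx)
  · intro i hi g u hu j x hx
    rw [mul_smul, show i + 1 + j = (i + j) + 1 by ring]
    cases g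
    · rw [UM.a_smul]; exact N.fa _ _ (hu hx)
    · rw [UM.d_smul]; exact N.fd _ _ (hu hx)
    · rw [UM.e_smul]; exact N.fe _ _ (hu hx)
    · rw [UM.f_smul]; exact N.ff _ _ (hu hx)

/-! ## The filtration of `RR` -/

/-- `RR_i`: `um, ua, io, x ∈ F_i`, `y ∈ F_{i+1}`. -/
def RR.fil (i : ℤ) : Submodule ℂ RR where
  carrier := {r | r.um ∈ U.fil i ∧ r.ua ∈ U.fil i ∧ r.io ∈ U.fil i ∧ (∀ k, r.x k ∈ U.fil i) ∧
    (∀ k, r.y k ∈ U.fil (i + 1))}
  zero_mem' := by
    refine ⟨Submodule.zero_mem _, Submodule.zero_mem _, Submodule.zero_mem _,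
      fun _ => Submodule.zero_mem _, fun _ => Submodule.zero_mem _⟩
  add_mem' := by
    rintro r s ⟨h1, h2, h3, h4, h5⟩ ⟨g1, g2, g3, g4, g5⟩
    exact ⟨Submodule.add_mem _ h1 g1, Submodule.add_mem _ h2 g2, Submodule.add_mem _ h3 g3,
      fun k => Submodule.add_mem _ (h4 k) (g4 k), fun k => Submodule.add_mem _ (h5 k) (g5 k)⟩
  smul_mem' := by
    rintro c r ⟨h1, h2, h3, h4, h5⟩
    exact ⟨Submodule.smul_mem _ _ h1, Submodule.smul_mem _ _ h2, Submodule.smul_mem _ _ h3,
      fun k => Submodule.smul_mem _ _ (h4 k), fun k => Submodule.smul_mem _ _ (h5 k)⟩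

lemma RR.mem_fil {i : ℤ} {r : RR} : r ∈ RR.fil i ↔ r.um ∈ U.fil i ∧ r.ua ∈ U.fil i ∧
    r.io ∈ U.fil i ∧ (∀ k, r.x k ∈ U.fil i) ∧ (∀ k, r.y k ∈ U.fil (i + 1)) := Iff.rfl


lemma RR.one_mem : (1 : RR) ∈ RR.fil 0 := by
  refine ⟨U.one_mem, U.one_mem, Submodule.zero_mem _, fun k => ?_, fun k => ?_⟩
  · simp
  · simp

lemma RR.mul_mem {i j : ℤ} {r s : RR} (hr : r ∈ RR.fil i) (hs : s ∈ RR.fil j) :
    r * s ∈ RR.fil (i + j) := by
  obtain ⟨h1, h2, h3, h4, h5⟩ := hr
  obtain ⟨g1, g2, g3, g4, g5⟩ := hs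
  refine ⟨U.mul_mem h1 g1, U.mul_mem h2 g2, ?_, fun k => ?_, fun k => ?_⟩
  · exact Submodule.add_mem _ (U.mul_mem h3 g2) (U.mul_mem h1 g3)
  · rw [RR.mul_x]
    refine Submodule.add_mem _ (U.mul_mem (h4 k) g1) ?_
    rw [Matrix.mulVec, dotProduct]
    exact Submodule.sum_mem _ fun m _ => U.mul_mem (Δ_mem h2 _ _) (g4 m)
  · rw [RR.mul_y]
    refine Submodule.add_mem _ (Submodule.add_mem _ ?_ ?_) ?_
    · have := U.mul_mem (h5 k) g1
      rwa [show i + 1 + j = i + j + 1 by ring] at this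
    · rw [Matrix.mulVec, dotProduct]
      refine Submodule.sum_mem _ fun m _ => ?_
      have := U.mul_mem (θΔ_mem h3 k m) (g4 m)
      rwa [show i + 1 + j = i + j + 1 by ring] at this
    · rw [Matrix.mulVec, dotProduct]
      refine Submodule.sum_mem _ fun m _ => ?_
      have := U.mul_mem (Δ_mem h1 k m) (g5 m)
      rwa [← add_assoc] at this

/-- `RR_i` is finite-dimensional. -/
lemma RR.fil_fg (i : ℤ) : Module.Finite ℂ (RR.fil i) := by
  have h1 : Module.Finite ℂ (U.fil i) := Module.Finite.iff_fg.2 (U.fil_fg i)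
  have h2 : Module.Finite ℂ (U.fil (i + 1)) := Module.Finite.iff_fg.2 (U.fil_fg (i + 1))
  let φ : RR.fil i →ₗ[ℂ] (U.fil i × U.fil i × U.fil i × (Fin 2 → U.fil i) ×
      (Fin 2 → U.fil (i + 1))) :=
    { toFun := fun r => (⟨r.1.um, r.2.1⟩, ⟨r.1.ua, r.2.2.1⟩, ⟨r.1.io, r.2.2.2.1⟩,
        fun k => ⟨r.1.x k, r.2.2.2.2.1 k⟩, fun k => ⟨r.1.y k, r.2.2.2.2.2 k⟩)
      map_add' := fun r s => rfl
      map_smul' := fun c r => rfl }
  refine Module.Finite.of_injective φ ?_
  intro r s h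
  have h' := h
  simp only [φ, LinearMap.coe_mk, AddHom.coe_mk, Prod.mk.injEq, Subtype.mk.injEq] at h'
  obtain ⟨e1, e2, e3, e4, e5⟩ := h'
  apply Subtype.ext
  apply RR.ext e1 e2 e3
  · funext k; exact congrArg Subtype.val (congrFun e4 k)
  · funext k; exact congrArg Subtype.val (congrFun e5 k)

end Crest.Agent.R178B
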