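import Mathlib
import Crest.Agent.R178B.OneVar

-- ▼ part R178B/Defs
section

/-!
Row 178 (S0268): finitistic dimension.  Definitions shared by all the modules of `Crest/Agent/R178B`.
See note 2950 (rid 178) of the team database for the mathematics.
-/

set_option autoImplicit false

open scoped Matrix.Module

noncomputable section

namespace Crest.Agent.R178B

/-! ## The algebra `U = U(gl₂)` -/

/-- Generators `a = E₁₁`, `d = E₂₂`, `e = E₁₂`, `f = E₂₁`. -/
inductive Gen : Type
  | a | d | e | f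
  deriving DecidableEq

/-- Commutation relations of `gl₂` for four elements of a ring. -/
structure IsGL2 {B : Type} [Ring B] (a d e f : B) : Prop where
  ad : a * d = d * a
  ae : a * e = e * a + e
  de : d * e = e * d - e
  af : a * f = f * a - f
  df : d * f = f * d + f
  ef : e * f = f * e + a - d

/-- Relations of the Borel subalgebra. -/
structure IsBorel {B : Type} [Ring B] (a d e : B) : Prop where
  ad : a * d = d * a
  ae : a * e = e * a + e
  de : d * e = e * d - e

local notation "gι" => FreeAlgebra.ι (X := Gen) ℂ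

/-- The defining relations of `U`. -/
inductive Rel : FreeAlgebra ℂ Gen → FreeAlgebra ℂ Gen → Prop
  | ad : Rel (gι Gen.a * gι Gen.d) (gι Gen.d * gι Gen.a)
  | ae : Rel (gι Gen.a * gι Gen.e) (gι Gen.e * gι Gen.a + gι Gen.e)
  | de : Rel (gι Gen.d * gι Gen.e) (gι Gen.e * gι Gen.d - gι Gen.e)
  | af : Rel (gι Gen.a * gι Gen.f) (gι Gen.f * gι Gen.a - gι Gen.f)
  | df : Rel (gι Gen.d * gι Gen.f) (gι Gen.f * gι Gen.d + gι Gen.f)
  | ef : Rel (gι Gen.e * gι Gen.f) (gι Gen.f * gι Gen.e + gι Gen.a - gι Gen.d)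

/-- `U = U(gl₂)`. -/
def U : Type := RingQuot Rel

instance : Ring U := inferInstanceAs (Ring (RingQuot Rel))
instance : Algebra ℂ U := inferInstanceAs (Algebra ℂ (RingQuot Rel))

/-- The quotient map. -/
def U.mk : FreeAlgebra ℂ Gen →ₐ[ℂ] U := RingQuot.mkAlgHom ℂ Rel

/-- The generators of `U`. -/
def U.g (x : Gen) : U := U.mk (FreeAlgebra.ι ℂ x)

lemma U.isGL2 : IsGL2 (U.g .a) (U.g .d) (U.g .e) (U.g .f) := by
  have h : ∀ {x y}, Rel x y → U.mk x = U.mk y := fun h => RingQuot.mkAlgHom_rel ℂ h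
  constructor
  · simpa [U.g] using h Rel.ad
  · simpa [U.g] using h Rel.ae
  · simpa [U.g] using h Rel.de
  · simpa [U.g] using h Rel.af
  · simpa [U.g] using h Rel.df
  · simpa [U.g] using h Rel.ef

/-- choose by generator -/
def Gen.pick {B : Type} (a d e f : B) : Gen → B
  | .a => a
  | .d => d
  | .e => e
  | .f => f

/-- Universal property of `U`. -/
def U.lift {B : Type} [Ring B] [Algebra ℂ B] {a d e f : B} (h : IsGL2 a d e f) : U →ₐ[ℂ] B :=
  RingQuot.liftAlgHom ℂ ⟨FreeAlgebra.lift ℂ (Gen.pick a d e f), by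
    intro x y hxy
    cases hxy <;> simp [Gen.pick, h.ad, h.ae, h.de, h.af, h.df, h.ef]⟩

lemma U.lift_g {B : Type} [Ring B] [Algebra ℂ B] {a d e f : B} (h : IsGL2 a d e f) (x : Gen) :
    U.lift h (U.g x) = Gen.pick a d e f x := by
  unfold U.lift U.g U.mk
  erw [RingQuot.liftAlgHom_mkAlgHom_apply]
  simp

@[simp] lemma U.lift_a {B : Type} [Ring B] [Algebra ℂ B] {a d e f : B} (h : IsGL2 a d e f) :
    U.lift h (U.g .a) = a := U.lift_g h _
@[simp] lemma U.lift_d {B : Type} [Ring B] [Algebra ℂ B] {a d e f : B} (h : IsGL2 a d e f) :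
    U.lift h (U.g .d) = d := U.lift_g h _
@[simp] lemma U.lift_e {B : Type} [Ring B] [Algebra ℂ B] {a d e f : B} (h : IsGL2 a d e f) :
    U.lift h (U.g .e) = e := U.lift_g h _
@[simp] lemma U.lift_f {B : Type} [Ring B] [Algebra ℂ B] {a d e f : B} (h : IsGL2 a d e f) :
    U.lift h (U.g .f) = f := U.lift_g h _

/-- Induction: `U` is generated by the `g x`. -/
lemma U.induction {p : U → Prop} (h1 : ∀ c : ℂ, p (algebraMap ℂ U c)) (hg : ∀ x, p (U.g x))
    (hadd : ∀ u v, p u → p v → p (u + v)) (hmul : ∀ u v, p u → p v → p (u * v)) (u : U) : p u := by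
  obtain ⟨w, rfl⟩ : ∃ w, U.mk w = u := RingQuot.mkAlgHom_surjective ℂ Rel u
  induction w using FreeAlgebra.induction with
  | grade0 c => simpa using h1 c
  | grade1 x => exact hg x
  | mul x y hx hy => simpa using hmul _ _ hx hy
  | add x y hx hy => simpa using hadd _ _ hx hy

/-- Two algebra homs out of `U` agreeing on generators are equal. -/
lemma U.hom_ext {B : Type} [Ring B] [Algebra ℂ B] {φ ψ : U →ₐ[ℂ] B}
    (h : ∀ x, φ (U.g x) = ψ (U.g x)) : φ = ψ := by
  ext u
  refine U.induction (p := fun u => φ u = ψ u) ?_ h ?_ ?_ u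
  · intro c; simp
  · intro u v hu hv; simp [hu, hv]
  · intro u v hu hv; simp [hu, hv]

/-- span of `1, a, d, e, f`. -/
def U.gens : Submodule ℂ U := Submodule.span ℂ ({1} ∪ Set.range U.g)

/-- PBW filtration of `U`, indexed by `ℤ` (zero in negative degrees). -/
def U.fil (i : ℤ) : Submodule ℂ U := if 0 ≤ i then U.gens ^ i.toNat else ⊥

/-! ## U-modules, bundled -/

/-- A `U`-module given by the four operators. -/
structure UM : Type 1 where
  carrier : Type
  [acg : AddCommGroup carrier]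
  [mod : Module ℂ carrier]
  a : Module.End ℂ carrier
  d : Module.End ℂ carrier
  e : Module.End ℂ carrier
  f : Module.End ℂ carrier
  rel : IsGL2 a d e f

attribute [instance] UM.acg UM.mod

instance : CoeSort UM Type := ⟨UM.carrier⟩

/-- The representation. -/
def UM.ρ (N : UM) : U →ₐ[ℂ] Module.End ℂ N.carrier := U.lift N.rel

instance (N : UM) : Module U N.carrier := Module.compHom _ N.ρ.toRingHom

lemma UM.smul_def (N : UM) (u : U) (x : N.carrier) : u • x = N.ρ u x := rfl

instance (N : UM) : IsScalarTower ℂ U N.carrier where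
  smul_assoc c u x := by
    rw [UM.smul_def, UM.smul_def, map_smul]; rfl

@[simp] lemma UM.a_smul (N : UM) (x : N.carrier) : U.g .a • x = N.a x := by
  rw [UM.smul_def, UM.ρ, U.lift_a]
@[simp] lemma UM.d_smul (N : UM) (x : N.carrier) : U.g .d • x = N.d x := by
  rw [UM.smul_def, UM.ρ, U.lift_d]
@[simp] lemma UM.e_smul (N : UM) (x : N.carrier) : U.g .e • x = N.e x := by
  rw [UM.smul_def, UM.ρ, U.lift_e]
@[simp] lemma UM.f_smul (N : UM) (x : N.carrier) : U.g .f • x = N.f x := by
  rw [UM.smul_def, UM.ρ, U.lift_f]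

/-- A linear map commuting with the four operators. -/
structure IsUHom {N N' : UM} (φ : N.carrier →ₗ[ℂ] N'.carrier) : Prop where
  a : ∀ x, φ (N.a x) = N'.a (φ x)
  d : ∀ x, φ (N.d x) = N'.d (φ x)
  e : ∀ x, φ (N.e x) = N'.e (φ x)
  f : ∀ x, φ (N.f x) = N'.f (φ x)

lemma IsUHom.smul {N N' : UM} {φ : N.carrier →ₗ[ℂ] N'.carrier} (h : IsUHom φ) (u : U)
    (x : N.carrier) : φ (u • x) = u • φ x := by
  revert x
  refine U.induction (p := fun u => ∀ x, φ (u • x) = u • φ x) ?_ ?_ ?_ ?_ u
  · intro c x; rw [algebraMap_smul, algebraMap_smul, map_smul]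
  · intro g x; cases g <;> simp [h.a, h.d, h.e, h.f]
  · intro u v hu hv x; rw [add_smul, add_smul, map_add, hu, hv]
  · intro u v hu hv x; rw [mul_smul, mul_smul, hu, hv]

/-- A filtered `U`-module. -/
structure FUM : Type 1 extends UM where
  fil : ℤ → Submodule ℂ carrier
  mono : ∀ i, fil i ≤ fil (i + 1)
  fa : ∀ i x, x ∈ fil i → a x ∈ fil (i + 1)
  fd : ∀ i x, x ∈ fil i → d x ∈ fil (i + 1)
  fe : ∀ i x, x ∈ fil i → e x ∈ fil (i + 1)
  ff : ∀ i x, x ∈ fil i → f x ∈ fil (i + 1)

end Crest.Agent.R178B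
end
private theorem rz_9d00e98f94 : type_of% @_root_.Crest.Agent.R178B.Gen.pick.eq_1 := @_root_.Crest.Agent.R178B.Gen.pick.eq_1 -- L72
end

-- ▼ part R178B/Ring
section

/-!
Row 178 (S0268), version B: coproduct `Δ`, the matrix `θ`, the ring `RR`, its filtration, the
finite-dimensional algebra `A`, windows.
-/

set_option autoImplicit false
set_option linter.all false

open scoped Matrix.Module

noncomputable section

namespace Crest.Agent.R178B

open Matrix

/-! ## `Δ` and `θ` -/

/-- matrices of `Δ(x)` -/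
def Δa : Matrix (Fin 2) (Fin 2) U := !![U.g .a, 0; 0, U.g .a - 1]
def Δd : Matrix (Fin 2) (Fin 2) U := !![U.g .d - 1, 0; 0, U.g .d]
def Δe : Matrix (Fin 2) (Fin 2) U := !![U.g .e, 1; 0, U.g .e]
def Δf : Matrix (Fin 2) (Fin 2) U := !![U.g .f, 0; 1, U.g .f]

lemma Δ_isGL2 : IsGL2 Δa Δd Δe Δf := by
  have h := U.isGL2
  constructor
  · ext i j; fin_cases i <;> fin_cases j <;>
      simp [Δa, Δd, Matrix.mul_apply, Fin.sum_univ_two, mul_sub, sub_mul, h.ad]
  · ext i j; fin_cases i <;> fin_cases j <;>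
      simp [Δa, Δe, Matrix.mul_apply, Fin.sum_univ_two, mul_sub, sub_mul, h.ae] <;> abel
  · ext i j; fin_cases i <;> fin_cases j <;>
      simp [Δd, Δe, Matrix.mul_apply, Fin.sum_univ_two, mul_sub, sub_mul, h.de] <;> abel
  · ext i j; fin_cases i <;> fin_cases j <;>
      simp [Δa, Δf, Matrix.mul_apply, Fin.sum_univ_two, mul_sub, sub_mul, h.af] <;> abel
  · ext i j; fin_cases i <;> fin_cases j <;>
      simp [Δd, Δf, Matrix.mul_apply, Fin.sum_univ_two, mul_sub, sub_mul, h.df] <;> abel
  · ext i j; fin_cases i <;> fin_cases j <;>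
      simp [Δa, Δd, Δe, Δf, Matrix.mul_apply, Fin.sum_univ_two, mul_sub, sub_mul, h.ef] <;> abel

/-- `Δ : U → M₂(U)` (the algebra acting on `V ⊗ - ⊗ det⁻¹`). -/
def Δ : U →ₐ[ℂ] Matrix (Fin 2) (Fin 2) U := U.lift Δ_isGL2

/-- the matrix `θ`. -/
def θ : Matrix (Fin 2) (Fin 2) U := !![U.g .a + 1, U.g .f; U.g .e, U.g .d + 1]

lemma θ_comm (u : U) : θ * Δ u = Δ u * θ := by
  have h := U.isGL2
  refine U.induction (p := fun u => θ * Δ u = Δ u * θ) ?_ ?_ ?_ ?_ u
  · intro c
    rw [AlgHom.commutes]; exact (Algebra.commutes c θ).symm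
  · intro g
    cases g
    · rw [show Δ (U.g .a) = Δa from U.lift_a _]
      ext i j; fin_cases i <;> fin_cases j <;>
        simp [Δa, θ, Matrix.mul_apply, Fin.sum_univ_two, mul_sub, sub_mul, mul_add, add_mul,
          h.ae, h.af, h.ad]
      abel
    · rw [show Δ (U.g .d) = Δd from U.lift_d _]
      ext i j; fin_cases i <;> fin_cases j <;>
        simp [Δd, θ, Matrix.mul_apply, Fin.sum_univ_two, mul_sub, sub_mul, mul_add, add_mul,
          h.de, h.df, h.ad]
      abel
    · rw [show Δ (U.g .e) = Δe from U.lift_e _]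
      ext i j; fin_cases i <;> fin_cases j <;>
        simp [Δe, θ, Matrix.mul_apply, Fin.sum_univ_two, mul_sub, sub_mul, mul_add, add_mul,
          h.ae, h.de, h.ef] <;> abel
    · rw [show Δ (U.g .f) = Δf from U.lift_f _]
      ext i j; fin_cases i <;> fin_cases j <;>
        simp [Δf, θ, Matrix.mul_apply, Fin.sum_univ_two, mul_sub, sub_mul, mul_add, add_mul,
          h.af, h.df, h.ef] <;> abel
  · intro u v hu hv; simp only [map_add, mul_add, add_mul, hu, hv]
  · intro u v hu hv
    rw [map_mul, ← mul_assoc, hu, mul_assoc, hv, mul_assoc]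

/-! ## the ring `RR` -/

/-- `RR = {(um, ua, io, x, y)}`. -/
def RR : Type := U × U × U × (Fin 2 → U) × (Fin 2 → U)

namespace RR

instance : AddCommGroup RR := inferInstanceAs (AddCommGroup (U × U × U × (Fin 2 → U) × (Fin 2 → U)))
instance : Module ℂ RR := inferInstanceAs (Module ℂ (U × U × U × (Fin 2 → U) × (Fin 2 → U)))

/-- constructor -/
def mk (um ua io : U) (x y : Fin 2 → U) : RR := (um, ua, io, x, y)
/-- main-main component -/
def um (r : RR) : U := r.1
/-- aux-aux component -/
def ua (r : RR) : U := r.2.1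
/-- aux → main component -/
def io (r : RR) : U := r.2.2.1
/-- `V ⊗ main → aux` component -/
def x (r : RR) : Fin 2 → U := r.2.2.2.1
/-- `V ⊗ main → main` component -/
def y (r : RR) : Fin 2 → U := r.2.2.2.2

@[ext] lemma ext {r s : RR} (h1 : r.um = s.um) (h2 : r.ua = s.ua) (h3 : r.io = s.io)
    (h4 : r.x = s.x) (h5 : r.y = s.y) : r = s :=
  Prod.ext h1 (Prod.ext h2 (Prod.ext h3 (Prod.ext h4 h5)))

section
variable (a b c : U) (p q : Fin 2 → U)
@[simp] lemma mk_um : (mk a b c p q).um = a := rfl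
@[simp] lemma mk_ua : (mk a b c p q).ua = b := rfl
@[simp] lemma mk_io : (mk a b c p q).io = c := rfl
@[simp] lemma mk_x : (mk a b c p q).x = p := rfl
@[simp] lemma mk_y : (mk a b c p q).y = q := rfl
end

@[simp] lemma zero_um : (0 : RR).um = 0 := rfl
@[simp] lemma zero_ua : (0 : RR).ua = 0 := rfl
@[simp] lemma zero_io : (0 : RR).io = 0 := rfl
@[simp] lemma zero_x : (0 : RR).x = 0 := rfl
@[simp] lemma zero_y : (0 : RR).y = 0 := rfl
@[simp] lemma add_um (r s : RR) : (r + s).um = r.um + s.um := rfl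
@[simp] lemma add_ua (r s : RR) : (r + s).ua = r.ua + s.ua := rfl
@[simp] lemma add_io (r s : RR) : (r + s).io = r.io + s.io := rfl
@[simp] lemma add_x (r s : RR) : (r + s).x = r.x + s.x := rfl
@[simp] lemma add_y (r s : RR) : (r + s).y = r.y + s.y := rfl
@[simp] lemma smul_um (c : ℂ) (r : RR) : (c • r).um = c • r.um := rfl
@[simp] lemma smul_ua (c : ℂ) (r : RR) : (c • r).ua = c • r.ua := rfl
@[simp] lemma smul_io (c : ℂ) (r : RR) : (c • r).io = c • r.io := rfl
@[simp] lemma smul_x (c : ℂ) (r : RR) : (c • r).x = c • r.x := rfl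
@[simp] lemma smul_y (c : ℂ) (r : RR) : (c • r).y = c • r.y := rfl

instance : One RR := ⟨mk 1 1 0 0 0⟩
@[simp] lemma one_um : (1 : RR).um = 1 := rfl
@[simp] lemma one_ua : (1 : RR).ua = 1 := rfl
@[simp] lemma one_io : (1 : RR).io = 0 := rfl
@[simp] lemma one_x : (1 : RR).x = 0 := rfl
@[simp] lemma one_y : (1 : RR).y = 0 := rfl

/-- `x * s` on each component. -/
def rmul (v : Fin 2 → U) (u : U) : Fin 2 → U := fun i => v i * u

@[simp] lemma rmul_apply (v : Fin 2 → U) (u : U) (i : Fin 2) : rmul v u i = v i * u := rfl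

instance : Mul RR := ⟨fun r s => mk (r.um * s.um) (r.ua * s.ua) (r.io * s.ua + r.um * s.io)
  (rmul r.x s.um + Δ r.ua *ᵥ s.x) (rmul r.y s.um + (θ * Δ r.io) *ᵥ s.x + Δ r.um *ᵥ s.y)⟩

@[simp] lemma mul_um (r s : RR) : (r * s).um = r.um * s.um := rfl
@[simp] lemma mul_ua (r s : RR) : (r * s).ua = r.ua * s.ua := rfl
@[simp] lemma mul_io (r s : RR) : (r * s).io = r.io * s.ua + r.um * s.io := rfl
@[simp] lemma mul_x (r s : RR) : (r * s).x = rmul r.x s.um + Δ r.ua *ᵥ s.x := rfl
@[simp] lemma mul_y (r s : RR) :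
    (r * s).y = rmul r.y s.um + (θ * Δ r.io) *ᵥ s.x + Δ r.um *ᵥ s.y := rfl

lemma rmul_add_right (v : Fin 2 → U) (a b : U) : rmul v (a + b) = rmul v a + rmul v b := by
  ext i; simp [mul_add]
lemma rmul_add_left (v w : Fin 2 → U) (a : U) : rmul (v + w) a = rmul v a + rmul w a := by
  ext i; simp [add_mul]
@[simp] lemma rmul_zero (v : Fin 2 → U) : rmul v 0 = 0 := by ext i; simp
@[simp] lemma zero_rmul (u : U) : rmul 0 u = 0 := by ext i; simp
@[simp] lemma rmul_one (v : Fin 2 → U) : rmul v 1 = v := by ext i; simp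
lemma rmul_mul (v : Fin 2 → U) (a b : U) : rmul v (a * b) = rmul (rmul v a) b := by
  ext i; simp [mul_assoc]
lemma rmul_mulVec (M : Matrix (Fin 2) (Fin 2) U) (v : Fin 2 → U) (a : U) :
    rmul (M *ᵥ v) a = M *ᵥ (rmul v a) := by
  ext i; simp only [rmul_apply, Matrix.mulVec, dotProduct, Finset.sum_mul, mul_assoc]

instance : Ring RR :=
  { (inferInstance : AddCommGroup RR) with
    one := 1
    mul := (· * ·)
    left_distrib := by
      intro r s t
      ext1
      · simp [mul_add]
      · simp [mul_add]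
      · simp only [mul_io, add_ua, add_io, add_um, mul_add]; abel
      · simp only [mul_x, add_um, add_x, rmul_add_right, Matrix.mulVec_add]; abel
      · simp only [mul_y, add_um, add_x, add_y, rmul_add_right, Matrix.mulVec_add]; abel
    right_distrib := by
      intro r s t
      ext1
      · simp [add_mul]
      · simp [add_mul]
      · simp only [mul_io, add_ua, add_io, add_um, add_mul]; abel
      · simp only [mul_x, add_ua, add_x, map_add, rmul_add_left, Matrix.add_mulVec]; abel
      · simp only [mul_y, add_um, add_io, add_x, add_y, map_add, mul_add, rmul_add_left,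
          Matrix.add_mulVec]; abel
    zero_mul := by intro r; ext1 <;> simp
    mul_zero := by intro r; ext1 <;> simp
    one_mul := by intro r; ext1 <;> simp
    mul_one := by intro r; ext1 <;> simp
    mul_assoc := by
      intro r s t
      ext1
      · simp [mul_assoc]
      · simp [mul_assoc]
      · simp [mul_assoc, mul_add, add_mul, add_assoc]
      · simp only [mul_x, mul_um, mul_ua, map_mul, rmul_mul, rmul_add_left, rmul_mulVec,
          Matrix.mulVec_add, Matrix.mulVec_mulVec, add_assoc]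
      · have key : θ * (Δ r.um * Δ s.io) = Δ r.um * (θ * Δ s.io) := by
          rw [← mul_assoc, θ_comm, mul_assoc]
        simp only [mul_y, mul_x, mul_um, mul_io, map_add, map_mul, mul_add, Matrix.add_mulVec,
          rmul_mul, rmul_add_left, rmul_mulVec, Matrix.mulVec_add, Matrix.mulVec_mulVec,
          mul_assoc, key]
        abel }

lemma smul_rmul (c : ℂ) (v : Fin 2 → U) (a : U) : rmul (c • v) a = c • rmul v a := by
  ext i; simp
lemma rmul_smul (c : ℂ) (v : Fin 2 → U) (a : U) : rmul v (c • a) = c • rmul v a := by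
  ext i; simp

instance : Algebra ℂ RR := Algebra.ofModule
  (by
    intro c r s
    ext1
    · simp
    · simp
    · simp
    · simp only [mul_x, smul_x, smul_ua, map_smul, smul_rmul, Matrix.smul_mulVec, smul_add]
    · simp only [mul_y, smul_x, smul_y, smul_io, smul_um, map_smul, smul_rmul,
        Matrix.smul_mulVec, smul_add, mul_smul_comm])
  (by
    intro c r s
    ext1
    · simp
    · simp
    · simp
    · simp only [mul_x, smul_x, smul_um, rmul_smul, Matrix.mulVec_smul, smul_add]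
    · simp only [mul_y, smul_x, smul_y, smul_um, rmul_smul, Matrix.mulVec_smul, smul_add])

end RR

end Crest.Agent.R178B
end
end

-- ▼ part R178B/Intf

/-!
Row 178 (S0268), version B: interface definitions and exact statements of the modules
`Chain.lean` (statement `ChainStmt`), `Vn.lean` (statement `VnStmt`), ...
-/

set_option autoImplicit false
set_option linter.all false

open scoped Matrix.Module

noncomputable section

namespace Crest.Agent.R178B

open Matrix

/-! ## Filtered exact sequences -/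

/-- Filtered short exact sequence `0 → L' → L → L'' → 0` of `ℂ`-spaces. -/
structure FExact {L' L L'' : Type} [AddCommGroup L'] [Module ℂ L'] [AddCommGroup L] [Module ℂ L]
    [AddCommGroup L''] [Module ℂ L''] (F' : ℤ → Submodule ℂ L') (F : ℤ → Submodule ℂ L)
    (F'' : ℤ → Submodule ℂ L'') (f : L' →ₗ[ℂ] L) (g : L →ₗ[ℂ] L'') : Prop where
  inj : Function.Injective f
  comp : ∀ x, g (f x) = 0
  mapf : ∀ i, ∀ x ∈ F' i, f x ∈ F i
  mapg : ∀ i, ∀ x ∈ F i, g x ∈ F'' i
  lift : ∀ i, ∀ x ∈ F i, g x = 0 → ∃ y ∈ F' i, f y = x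
  surj : ∀ i, ∀ z ∈ F'' i, ∃ x ∈ F i, g x = z

/-- shift of the filtration: `N(-s)`. -/
def FUM.shift (N : FUM) (s : ℤ) : FUM where
  toUM := N.toUM
  fil i := N.fil (i - s)
  mono i := by have := N.mono (i - s); rwa [show i - s + 1 = i + 1 - s by ring] at this
  fa i x hx := by have := N.fa (i - s) x hx; rwa [show i - s + 1 = i + 1 - s by ring] at this
  fd i x hx := by have := N.fd (i - s) x hx; rwa [show i - s + 1 = i + 1 - s by ring] at this
  fe i x hx := by have := N.fe (i - s) x hx; rwa [show i - s + 1 = i + 1 - s by ring] at this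
  ff i x hx := by have := N.ff (i - s) x hx; rwa [show i - s + 1 = i + 1 - s by ring] at this

/-- Filtered short exact sequence of filtered `U`-modules. -/
structure SES (N' N N'' : FUM) (f : N'.carrier →ₗ[ℂ] N.carrier) (g : N.carrier →ₗ[ℂ] N''.carrier) :
    Prop where
  hf : IsUHom f
  hg : IsUHom g
  ex : FExact N'.fil N.fil N''.fil f g

/-- trivial filtration -/
def trivFil (L : Type) [AddCommGroup L] [Module ℂ L] (i : ℤ) : Submodule ℂ L :=
  if 0 ≤ i then ⊤ else ⊥

lemma trivFil_mono {L : Type} [AddCommGroup L] [Module ℂ L] (i : ℤ) :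
    trivFil L i ≤ trivFil L (i + 1) := by
  unfold trivFil
  by_cases h1 : 0 ≤ i
  · rw [if_pos h1, if_pos (by omega)]
  · rw [if_neg h1]; exact bot_le

lemma trivFil_map {L : Type} [AddCommGroup L] [Module ℂ L] (T : L →ₗ[ℂ] L) (i : ℤ) (x : L)
    (hx : x ∈ trivFil L i) : T x ∈ trivFil L (i + 1) := by
  unfold trivFil at hx ⊢
  by_cases h1 : 0 ≤ i
  · rw [if_pos (by omega : 0 ≤ i + 1)]; trivial
  · rw [if_neg h1] at hx
    rw [(Submodule.mem_bot ℂ).1 hx, map_zero]
    exact Submodule.zero_mem _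

/-- A `U`-module with the trivial filtration (everything in degree `0`). -/
def UM.triv (N : UM) : FUM where
  toUM := N
  fil := trivFil N.carrier
  mono i := trivFil_mono i
  fa i x hx := trivFil_map _ i x hx
  fd i x hx := trivFil_map _ i x hx
  fe i x hx := trivFil_map _ i x hx
  ff i x hx := trivFil_map _ i x hx

/-- `N` is a free filtered `U`-module with basis `n j`, `j : J`, in degree `0`. -/
structure IsFilFree (N : FUM) {J : Type} [Fintype J] (n : J → N.carrier) : Prop where
  mem : ∀ j, n j ∈ N.fil 0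
  inj : ∀ u : J → U, ∑ j, u j • n j = 0 → ∀ j, u j = 0
  surj : ∀ (i : ℤ) (x : N.carrier), x ∈ N.fil i →
    ∃ u : J → U, (∀ j, u j ∈ U.fil i) ∧ ∑ j, u j • n j = x

/-- **B3** (helper528).  `L.triv` is reached from free filtered modules by four
one-variable exact sequences `0 → N'(-1) → N → N'' → 0`:
`N'' = L`, `N = L[F]`, `N' = L*[F]`; each of these is the cokernel for `L[E][F]`, ... -/
def ChainStmt : Prop :=
  ∀ (P : ℕ → FUM → Prop),
    (∀ (N : FUM) (J : Type) [Fintype J] [Nonempty J] (n : J → N.carrier),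
      IsFilFree N n → P 0 N) →
    (∀ (j : ℕ) (N' N N'' : FUM) (f : N'.carrier →ₗ[ℂ] N.carrier)
      (g : N.carrier →ₗ[ℂ] N''.carrier), SES (N'.shift 1) N N'' f g →
      P j N' → P j N → P (j + 1) N'') →
    ∀ (L : UM) [Module.Finite ℂ L.carrier] [Nontrivial L.carrier], P 4 L.triv

/-! ## The twist `V ⊗ N ⊗ det⁻¹` and `θ` on modules -/

/-- operator on `Fin 2 → N` given by four operators -/
def mat2 {N : Type} [AddCommGroup N] [Module ℂ N] (p q r s : Module.End ℂ N) :
    Module.End ℂ (Fin 2 → N) where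
  toFun v := ![p (v 0) + q (v 1), r (v 0) + s (v 1)]
  map_add' v w := by
    ext i; fin_cases i <;> simp <;> abel
  map_smul' c v := by
    ext i; fin_cases i <;> simp

@[simp] lemma mat2_zero {N : Type} [AddCommGroup N] [Module ℂ N] (p q r s : Module.End ℂ N)
    (v : Fin 2 → N) : mat2 p q r s v 0 = p (v 0) + q (v 1) := rfl
@[simp] lemma mat2_one {N : Type} [AddCommGroup N] [Module ℂ N] (p q r s : Module.End ℂ N)
    (v : Fin 2 → N) : mat2 p q r s v 1 = r (v 0) + s (v 1) := rfl

/-- `V ⊗ N ⊗ det⁻¹`: the `U`-module `N²` on which `u` acts by `Δ u`. -/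
def UM.tw (N : UM) : UM where
  carrier := Fin 2 → N.carrier
  a := mat2 N.a 0 0 (N.a - 1)
  d := mat2 (N.d - 1) 0 0 N.d
  e := mat2 N.e 1 0 N.e
  f := mat2 N.f 0 1 N.f
  rel := by
    have ad : ∀ x, N.a (N.d x) = N.d (N.a x) := LinearMap.congr_fun N.rel.ad
    have ae : ∀ x, N.a (N.e x) = N.e (N.a x) + N.e x := LinearMap.congr_fun N.rel.ae
    have de : ∀ x, N.d (N.e x) = N.e (N.d x) - N.e x := LinearMap.congr_fun N.rel.de
    have af : ∀ x, N.a (N.f x) = N.f (N.a x) - N.f x := LinearMap.congr_fun N.rel.af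
    have df : ∀ x, N.d (N.f x) = N.f (N.d x) + N.f x := LinearMap.congr_fun N.rel.df
    have ef : ∀ x, N.e (N.f x) = N.f (N.e x) + N.a x - N.d x := LinearMap.congr_fun N.rel.ef
    constructor <;> refine LinearMap.ext fun v => ?_ <;> funext i <;> fin_cases i <;>
      simp [Module.End.mul_apply, ad, ae, de, af, df, ef] <;> abel

/-- `θ` acting on `N²`. -/
def UM.θ (N : UM) : N.tw.carrier →ₗ[ℂ] N.tw.carrier := mat2 (N.a + 1) N.f N.e (N.d + 1)

lemma UM.tw_smul (N : UM) (u : U) (v : Fin 2 → N.carrier) :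
    ((u • (show N.tw.carrier from v) : N.tw.carrier) : Fin 2 → N.carrier) = Δ u • v := by
  revert v
  refine U.induction (p := fun u => ∀ v : Fin 2 → N.carrier,
    ((u • (show N.tw.carrier from v) : N.tw.carrier) : Fin 2 → N.carrier) = Δ u • v) ?_ ?_ ?_ ?_ u
  · intro c v
    rw [algebraMap_smul, AlgHom.commutes]
    change c • v = _
    funext i
    fin_cases i <;> simp [Matrix.Module.smul_apply, Matrix.algebraMap_matrix_apply]
  · intro g v
    cases g
    · rw [show Δ (U.g .a) = Δa from U.lift_a _, UM.a_smul]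
      change (mat2 N.a 0 0 (N.a - 1) : Module.End ℂ (Fin 2 → N.carrier)) v = _
      funext i
      fin_cases i <;> simp [Δa, Matrix.Module.smul_apply, sub_smul]
    · rw [show Δ (U.g .d) = Δd from U.lift_d _, UM.d_smul]
      change (mat2 (N.d - 1) 0 0 N.d : Module.End ℂ (Fin 2 → N.carrier)) v = _
      funext i
      fin_cases i <;> simp [Δd, Matrix.Module.smul_apply, sub_smul]
    · rw [show Δ (U.g .e) = Δe from U.lift_e _, UM.e_smul]
      change (mat2 N.e 1 0 N.e : Module.End ℂ (Fin 2 → N.carrier)) v = _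
      funext i
      fin_cases i <;> simp [Δe, Matrix.Module.smul_apply, sub_smul]
    · rw [show Δ (U.g .f) = Δf from U.lift_f _, UM.f_smul]
      change (mat2 N.f 0 1 N.f : Module.End ℂ (Fin 2 → N.carrier)) v = _
      funext i
      fin_cases i <;> simp [Δf, Matrix.Module.smul_apply, sub_smul]
  · intro u w hu hw v
    rw [add_smul, map_add, add_smul, ← hu, ← hw]; rfl
  · intro u w hu hw v
    rw [mul_smul, map_mul, mul_smul, ← hw, ← hu]

/-- **B1** (helper632). -/
def VnStmt (V : ℕ → UM) : Prop :=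
  (∀ n, Module.Finite ℂ (V n).carrier) ∧ (∀ n, Nontrivial (V n).carrier) ∧
  Function.Bijective (V 0).θ ∧
  ∀ n, ∃ (i : (V n).carrier →ₗ[ℂ] (V (n + 1)).tw.carrier)
    (p : (V (n + 1)).tw.carrier →ₗ[ℂ] (V n).carrier),
    IsUHom i ∧ IsUHom p ∧ Function.Injective i ∧ Function.Exact i (V (n + 1)).θ ∧
      Function.Exact (V (n + 1)).θ p ∧ Function.Surjective p

end Crest.Agent.R178B
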