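import Crest.Agent.R178B.Fil
import Crest.Agent.R178B.Window
import Crest.Agent.R178.Homol2
import Crest.Agent.R178B.Intf

-- ▼ part R178B/Simple
section

/-!
Row 178 (S0268), team B: the simple module `S` at the vertex `(aux, 4)` of the window algebra.
-/

set_option autoImplicit false

noncomputable section

namespace Crest.Agent.R178B

open Finset Crest.Agent.R178

/-- augmentation of `U` -/
def aug : U →ₐ[ℂ] ℂ := U.lift (a := (0 : ℂ)) (d := 0) (e := 0) (f := 0) (by constructor <;> simp)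

namespace RR

/-- the idempotent of the main block -/
def εm : RR := mk 1 0 0 0 0

/-- the idempotent of the auxiliary block -/
def εa : RR := mk 0 1 0 0 0

lemma εm_mul_εm : εm * εm = εm := by
  ext1 <;> simp [εm]

lemma εa_mul_εa : εa * εa = εa := by
  ext1 <;> simp [εa]

@[simp] lemma εm_ua : εm.ua = 0 := rfl
@[simp] lemma εa_ua : εa.ua = 1 := rfl

lemma mul_εm (r : RR) : r * εm = mk r.um 0 0 r.x r.y := by
  ext1 <;> simp [εm]

lemma mul_εa (r : RR) : r * εa = mk 0 r.ua r.io 0 0 := by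
  ext1 <;> simp [εa]

/-- `ua` as a ring homomorphism -/
def uaHom : RR →+* U where
  toFun := ua
  map_one' := rfl
  map_mul' _ _ := rfl
  map_zero' := rfl
  map_add' _ _ := rfl

end RR

variable {F : ℤ → Submodule ℂ RR} (hF : RingFil F)
  (hneg : ∀ i : ℤ, i < 0 → ∀ r ∈ F i, r.ua = 0)

/-- the character of the window algebra at the vertex `(aux, 4)` -/
def chi (hneg : ∀ i : ℤ, i < 0 → ∀ r ∈ F i, r.ua = 0) : WA F hF →+* ℂ where
  toFun M := aug (RR.uaHom (M.1 4 4))
  map_one' := by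
    change aug (RR.uaHom ((1 : Matrix (Fin 5) (Fin 5) RR) 4 4)) = 1
    rw [Matrix.one_apply_eq, map_one, map_one]
  map_mul' M N := by
    change aug (RR.uaHom ((M.1 * N.1) 4 4)) = _
    rw [Matrix.mul_apply, map_sum, Finset.sum_eq_single (4 : Fin 5)]
    · rw [map_mul, map_mul]
    · intro j _ hj
      have h1 : (M.1 4 j).ua = (M.1 4 j).ua := rfl
      have h2 : RR.uaHom (N.1 j 4) = 0 := by
        apply hneg _ _ _ (N.2 j 4)
        fin_cases j <;> simp [vi] at hj ⊢
      rw [map_mul, h2, mul_zero]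
    · intro h
      exact absurd (Finset.mem_univ _) h
  map_zero' := by
    change aug (RR.uaHom 0) = 0
    rw [map_zero, map_zero]
  map_add' M N := by
    change aug (RR.uaHom (M.1 4 4 + N.1 4 4)) = _
    rw [map_add, map_add]

/-- the one-dimensional module at the vertex `(aux, 4)` -/
def SS (_hF : RingFil F) (_hneg : ∀ i : ℤ, i < 0 → ∀ r ∈ F i, r.ua = 0) : Type := ℂ

instance : AddCommGroup (SS hF hneg) := inferInstanceAs (AddCommGroup ℂ)

instance : Module ℂ (SS hF hneg) := inferInstanceAs (Module ℂ ℂ)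

instance : Module (WA F hF) (SS hF hneg) := Module.compHom ℂ (chi hF hneg)

lemma SS_smul (M : WA F hF) (x : SS hF hneg) : M • x = aug ((M.1 4 4).ua) • x := rfl

/-- a nonzero element -/
def SS.one : SS hF hneg := (1 : ℂ)

lemma SS.one_ne_zero : SS.one hF hneg ≠ 0 := by
  change (1 : ℂ) ≠ 0
  exact _root_.one_ne_zero

instance : Module.Finite ℂ (SS hF hneg) := inferInstanceAs (Module.Finite ℂ ℂ)

lemma SS_diagE {ε : RR} (hε0 : ε ∈ F 0) (s : Fin 5) (x : SS hF hneg) :
    diagE hF ε hε0 s • x = aug (if 4 = s then ε.ua else 0) • x := by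
  rw [SS_smul, diagE_apply]
  by_cases h : 4 = s
  · simp [h]
  · rw [if_neg h, if_neg h]
    rfl




/-! ## Specialization to the actual filtration of `RR` -/

/-- the filtration of `RR` is a ring filtration -/
theorem RR.ringFil : RingFil RR.fil := ⟨RR.one_mem, RR.mul_mem⟩

theorem RR.fil_hneg : ∀ i : ℤ, i < 0 → ∀ r ∈ RR.fil i, r.ua = 0 := by
  intro i hi r hr
  have h := (RR.mem_fil.1 hr).2.1
  rw [U.fil_neg hi] at h
  exact (Submodule.mem_bot ℂ).1 h

theorem RR.εm_mem : RR.εm ∈ RR.fil 0 := by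
  rw [RR.mem_fil]
  refine ⟨U.one_mem, Submodule.zero_mem _, Submodule.zero_mem _, fun k => Submodule.zero_mem _,
    fun k => Submodule.zero_mem _⟩

theorem RR.εa_mem : RR.εa ∈ RR.fil 0 := by
  rw [RR.mem_fil]
  refine ⟨Submodule.zero_mem _, U.one_mem, Submodule.zero_mem _, fun k => Submodule.zero_mem _,
    fun k => Submodule.zero_mem _⟩

/-- the window algebra of row 178 -/
abbrev WAR : Subalgebra ℂ (Matrix (Fin 5) (Fin 5) RR) := WA RR.fil RR.ringFil

instance WAR.finite : Module.Finite ℂ WAR := WA.finite (hF := RR.ringFil) RR.fil_fg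

/-- the simple module `S` over `WAR` -/
abbrev SR : Type := SS RR.ringFil RR.fil_hneg




/-- `Hom` from the main columns to `S` vanishes. -/
theorem hom_mR (s : Fin 5) (f : (colFM RR.ringFil RR.εm (vi s)).Win →ₗ[WAR] SR) : f = 0 := by
  refine col_hom_eq_zero RR.εm_mul_εm RR.εm_mem s (fun x => ?_) f
  rw [SS_diagE]
  simp

/-- `Hom` from the auxiliary columns at `s ≠ 4` to `S` vanishes. -/
theorem hom_aR (s : Fin 5) (hs : s ≠ 4) (f : (colFM RR.ringFil RR.εa (vi s)).Win →ₗ[WAR] SR) :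
    f = 0 := by
  refine col_hom_eq_zero RR.εa_mul_εa RR.εa_mem s (fun x => ?_) f
  rw [SS_diagE, if_neg (fun h => hs h.symm)]
  simp

/-- `Hom` from the auxiliary column at `4` to `S` does not vanish. -/
theorem exists_hom_aR : ∃ f : (colFM RR.ringFil RR.εa (vi 4)).Win →ₗ[WAR] SR, f ≠ 0 := by
  refine ⟨colHom RR.ringFil RR.εa 4 (SS.one RR.ringFil RR.fil_hneg), fun h0 => ?_⟩
  have h1 := colHom_gen (hF := RR.ringFil) RR.εa_mul_εa RR.εa_mem 4
    (SS.one RR.ringFil RR.fil_hneg)
  rw [h0, SS_diagE] at h1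
  simp at h1
  exact SS.one_ne_zero RR.ringFil RR.fil_hneg h1.symm


end Crest.Agent.R178B
end
end

-- ▼ part R178B/Ind
section

/-!
Row 178 (S0268), version B: the `RR`-modules `IndM N`, `GM φ`, `BM N`, their filtrations, exactness
of windows and projectivity of the windows of free filtered modules.
-/

set_option autoImplicit false
set_option linter.all false

open scoped Matrix.Module

noncomputable section

namespace Crest.Agent.R178B

open Matrix

section
variable {N : UM}

/-- `(x • p)_k = x_k • p` -/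
def cp (x : Fin 2 → U) (p : N.carrier) : Fin 2 → N.carrier := fun k => x k • p

@[simp] lemma cp_apply (x : Fin 2 → U) (p : N.carrier) (k : Fin 2) : cp x p k = x k • p := rfl
lemma cp_add (x : Fin 2 → U) (p q : N.carrier) : cp x (p + q) = cp x p + cp x q := by
  ext k; simp
lemma add_cp (x y : Fin 2 → U) (p : N.carrier) : cp (x + y) p = cp x p + cp y p := by
  ext k; simp [add_smul]
@[simp] lemma cp_zero (x : Fin 2 → U) : cp x (0 : N.carrier) = 0 := by ext k; simp
@[simp] lemma zero_cp (p : N.carrier) : cp 0 p = 0 := by ext k; simp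
lemma cp_rmul (x : Fin 2 → U) (u : U) (p : N.carrier) : cp (RR.rmul x u) p = cp x (u • p) := by
  ext k; simp [mul_smul]
lemma cp_mulVec (M : Matrix (Fin 2) (Fin 2) U) (x : Fin 2 → U) (p : N.carrier) :
    cp (M *ᵥ x) p = M • cp x p := by
  funext k
  simp only [cp_apply, Matrix.mulVec, dotProduct, Matrix.Module.smul_apply, Finset.sum_smul,
    mul_smul]

end

/-! ## the module induced from the main block -/

/-- `RR e_m ⊗_U N` -/
def IndM (N : UM) : Type := N.carrier × (Fin 2 → N.carrier) × (Fin 2 → N.carrier)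

namespace IndM
variable {N : UM}

instance : AddCommGroup (IndM N) :=
  inferInstanceAs (AddCommGroup (N.carrier × (Fin 2 → N.carrier) × (Fin 2 → N.carrier)))

/-- constructor -/
def mk (p : N.carrier) (q s : Fin 2 → N.carrier) : IndM N := (p, q, s)
/-- first component -/
def p (v : IndM N) : N.carrier := v.1
/-- second component -/
def q (v : IndM N) : Fin 2 → N.carrier := v.2.1
/-- third component -/
def s (v : IndM N) : Fin 2 → N.carrier := v.2.2

@[ext] lemma ext {v w : IndM N} (h1 : v.p = w.p) (h2 : v.q = w.q) (h3 : v.s = w.s) : v = w :=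
  Prod.ext h1 (Prod.ext h2 h3)

@[simp] lemma mk_p (a : N.carrier) (b c : Fin 2 → N.carrier) : (mk a b c).p = a := rfl
@[simp] lemma mk_q (a : N.carrier) (b c : Fin 2 → N.carrier) : (mk a b c).q = b := rfl
@[simp] lemma mk_s (a : N.carrier) (b c : Fin 2 → N.carrier) : (mk a b c).s = c := rfl
@[simp] lemma zero_p : (0 : IndM N).p = 0 := rfl
@[simp] lemma zero_q : (0 : IndM N).q = 0 := rfl
@[simp] lemma zero_s : (0 : IndM N).s = 0 := rfl
@[simp] lemma add_p (v w : IndM N) : (v + w).p = v.p + w.p := rfl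
@[simp] lemma add_q (v w : IndM N) : (v + w).q = v.q + w.q := rfl
@[simp] lemma add_s (v w : IndM N) : (v + w).s = v.s + w.s := rfl
@[simp] lemma neg_p (v : IndM N) : (-v).p = -v.p := rfl
@[simp] lemma neg_q (v : IndM N) : (-v).q = -v.q := rfl
@[simp] lemma neg_s (v : IndM N) : (-v).s = -v.s := rfl

instance : SMul RR (IndM N) := ⟨fun r v => mk (r.um • v.p) (cp r.x v.p + Δ r.ua • v.q)
  (cp r.y v.p + (θ * Δ r.io) • v.q + Δ r.um • v.s)⟩

@[simp] lemma smul_p (r : RR) (v : IndM N) : (r • v).p = r.um • v.p := rfl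
@[simp] lemma smul_q (r : RR) (v : IndM N) : (r • v).q = cp r.x v.p + Δ r.ua • v.q := rfl
@[simp] lemma smul_s (r : RR) (v : IndM N) :
    (r • v).s = cp r.y v.p + (θ * Δ r.io) • v.q + Δ r.um • v.s := rfl

instance : Module RR (IndM N) where
  one_smul v := by ext1 <;> simp
  smul_zero r := by ext1 <;> simp
  zero_smul v := by ext1 <;> simp
  smul_add r v w := by
    ext1
    · simp
    · simp only [smul_q, add_p, add_q, cp_add, smul_add]; abel
    · simp only [smul_s, add_p, add_q, add_s, cp_add, smul_add]; abel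
  add_smul r t v := by
    ext1
    · simp [add_smul]
    · simp only [smul_q, RR.add_x, RR.add_ua, map_add, add_q, add_cp, add_smul]; abel
    · simp only [smul_s, RR.add_y, RR.add_io, RR.add_um, map_add, mul_add, add_s, add_cp,
        add_smul]; abel
  mul_smul r t v := by
    ext1
    · simp [mul_smul]
    · simp only [smul_q, smul_p, RR.mul_x, RR.mul_ua, map_mul, add_cp, cp_rmul, cp_mulVec,
        smul_add, mul_smul, add_assoc]
    · have key : θ * (Δ r.um * Δ t.io) = Δ r.um * (θ * Δ t.io) := by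
        rw [← mul_assoc, θ_comm, mul_assoc]
      have key2 : θ * Δ (r.io * t.ua + r.um * t.io) =
          (θ * Δ r.io) * Δ t.ua + Δ r.um * (θ * Δ t.io) := by
        rw [map_add, map_mul, map_mul, mul_add, key, mul_assoc]
      simp only [smul_s, smul_q, smul_p, RR.mul_y, RR.mul_io, RR.mul_um, key2, map_mul, add_cp,
        cp_rmul, cp_mulVec, smul_add, add_smul]
      rw [mul_smul (θ * Δ r.io) (Δ t.ua), mul_smul (Δ r.um) (θ * Δ t.io),
        mul_smul (Δ r.um) (Δ t.um)]
      abel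

end IndM

/-! ## the modules `G(φ)` -/

/-- `N_a × N_m` with the structure map `φ : N_a → N_m` -/
def GM {Na Nm : UM} {φ : Na.carrier →ₗ[ℂ] Nm.carrier} (hφ : IsUHom φ) : Type :=
  Na.carrier × Nm.carrier

namespace GM
variable {Na Nm : UM} {φ : Na.carrier →ₗ[ℂ] Nm.carrier} {hφ : IsUHom φ}

instance : AddCommGroup (GM hφ) := inferInstanceAs (AddCommGroup (Na.carrier × Nm.carrier))

/-- constructor -/
def mk (hφ : IsUHom φ) (q : Na.carrier) (s : Nm.carrier) : GM hφ := (q, s)
/-- aux component -/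
def q (v : GM hφ) : Na.carrier := v.1
/-- main component -/
def s (v : GM hφ) : Nm.carrier := v.2

@[ext] lemma ext {v w : GM hφ} (h1 : v.q = w.q) (h2 : v.s = w.s) : v = w := Prod.ext h1 h2

@[simp] lemma mk_q (a : Na.carrier) (b : Nm.carrier) : (mk hφ a b).q = a := rfl
@[simp] lemma mk_s (a : Na.carrier) (b : Nm.carrier) : (mk hφ a b).s = b := rfl
@[simp] lemma zero_q : (0 : GM hφ).q = 0 := rfl
@[simp] lemma zero_s : (0 : GM hφ).s = 0 := rfl
@[simp] lemma add_q (v w : GM hφ) : (v + w).q = v.q + w.q := rfl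
@[simp] lemma add_s (v w : GM hφ) : (v + w).s = v.s + w.s := rfl
@[simp] lemma neg_q (v : GM hφ) : (-v).q = -v.q := rfl
@[simp] lemma neg_s (v : GM hφ) : (-v).s = -v.s := rfl

instance : SMul RR (GM hφ) := ⟨fun r v => mk hφ (r.ua • v.q) (r.io • φ v.q + r.um • v.s)⟩

@[simp] lemma smul_q (r : RR) (v : GM hφ) : (r • v).q = r.ua • v.q := rfl
@[simp] lemma smul_s (r : RR) (v : GM hφ) : (r • v).s = r.io • φ v.q + r.um • v.s := rfl

instance : Module RR (GM hφ) where
  one_smul v := by ext1 <;> simp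
  smul_zero r := by ext1 <;> simp
  zero_smul v := by ext1 <;> simp
  smul_add r v w := by
    ext1
    · simp
    · simp only [smul_s, add_q, add_s, map_add, smul_add]; abel
  add_smul r t v := by
    ext1
    · simp [add_smul]
    · simp only [smul_s, RR.add_io, RR.add_um, add_s, add_smul]; abel
  mul_smul r t v := by
    ext1
    · simp [mul_smul]
    · simp only [smul_s, smul_q, RR.mul_io, RR.mul_um, add_smul, mul_smul, smul_add, hφ.smul]
      abel

end GM

/-! ## modules over the main block -/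

/-- `N` with `r` acting through `um` -/
def BM (N : UM) : Type := N.carrier

namespace BM
variable {N : UM}

instance : AddCommGroup (BM N) := inferInstanceAs (AddCommGroup N.carrier)

/-- constructor -/
def mk (v : N.carrier) : BM N := v
/-- underlying element -/
def v (x : BM N) : N.carrier := x

@[ext] lemma ext {x y : BM N} (h : x.v = y.v) : x = y := h
@[simp] lemma mk_v (a : N.carrier) : (mk a).v = a := rfl
@[simp] lemma zero_v : (0 : BM N).v = 0 := rfl
@[simp] lemma add_v (x y : BM N) : (x + y).v = x.v + y.v := rfl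

instance : SMul RR (BM N) := ⟨fun r x => mk (r.um • x.v)⟩
@[simp] lemma smul_v (r : RR) (x : BM N) : (r • x).v = r.um • x.v := rfl

instance : Module RR (BM N) where
  one_smul v := by ext1; simp
  smul_zero r := by ext1; simp
  zero_smul v := by ext1; simp
  smul_add r v w := by ext1; simp
  add_smul r t v := by ext1; simp [add_smul]
  mul_smul r t v := by ext1; simp [mul_smul]

end BM

end Crest.Agent.R178B
end
end

-- ▼ part R178B/Ind2
section

/-!
Row 178 (S0268), version B: filtered versions of the `RR`-modules `IndM N`, `GM φ`, `BM N`,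
exactness of windows and projectivity of the windows of free filtered modules.
-/

set_option autoImplicit false
set_option linter.all false

open scoped Matrix.Module

noncomputable section

namespace Crest.Agent.R178B

open Matrix

/-! ## functoriality -/

lemma map_msmul {N N' : UM} {f : N.carrier →ₗ[ℂ] N'.carrier} (hf : IsUHom f)
    (M : Matrix (Fin 2) (Fin 2) U) (q : Fin 2 → N.carrier) (k : Fin 2) :
    f ((M • q) k) = (M • (fun k => f (q k))) k := by
  simp only [Matrix.Module.smul_apply, map_sum, hf.smul]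

/-- functoriality of `IndM` -/
def IndM.map {N N' : UM} {f : N.carrier →ₗ[ℂ] N'.carrier} (hf : IsUHom f) :
    IndM N →ₗ[RR] IndM N' where
  toFun v := IndM.mk (f v.p) (fun k => f (v.q k)) (fun k => f (v.s k))
  map_add' v w := by
    ext1
    · simp
    · funext k; simp
    · funext k; simp
  map_smul' r v := by
    ext1
    · simp [hf.smul]
    · funext k
      simp only [IndM.mk_q, IndM.smul_q, IndM.mk_p, Pi.add_apply, map_add, map_msmul hf,
        cp_apply, hf.smul, RingHom.id_apply]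
    · funext k
      simp only [IndM.mk_q, IndM.smul_s, IndM.mk_p, IndM.mk_s, Pi.add_apply, map_add,
        map_msmul hf, cp_apply, hf.smul, RingHom.id_apply]

@[simp] lemma IndM.map_p {N N' : UM} {f : N.carrier →ₗ[ℂ] N'.carrier} (hf : IsUHom f)
    (v : IndM N) : (IndM.map hf v).p = f v.p := rfl
@[simp] lemma IndM.map_q {N N' : UM} {f : N.carrier →ₗ[ℂ] N'.carrier} (hf : IsUHom f)
    (v : IndM N) : (IndM.map hf v).q = fun k => f (v.q k) := rfl
@[simp] lemma IndM.map_s {N N' : UM} {f : N.carrier →ₗ[ℂ] N'.carrier} (hf : IsUHom f)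
    (v : IndM N) : (IndM.map hf v).s = fun k => f (v.s k) := rfl

/-- the identity is a `U`-homomorphism -/
lemma isUHom_id (N : UM) : IsUHom (N := N) (N' := N) LinearMap.id :=
  ⟨fun _ => rfl, fun _ => rfl, fun _ => rfl, fun _ => rfl⟩

/-- `RR e_a ⊗_U N` -/
abbrev IndA (N : UM) : Type := GM (isUHom_id N)

/-- functoriality of `IndA` -/
def IndA.map {N N' : UM} {f : N.carrier →ₗ[ℂ] N'.carrier} (hf : IsUHom f) :
    IndA N →ₗ[RR] IndA N' where
  toFun v := GM.mk _ (f v.q) (f v.s)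
  map_add' v w := by
    ext1 <;> simp
  map_smul' r v := by
    ext1
    · simp [hf.smul]
    · simp [hf.smul]

@[simp] lemma IndA.map_q {N N' : UM} {f : N.carrier →ₗ[ℂ] N'.carrier} (hf : IsUHom f)
    (v : IndA N) : (IndA.map hf v).q = f v.q := rfl
@[simp] lemma IndA.map_s {N N' : UM} {f : N.carrier →ₗ[ℂ] N'.carrier} (hf : IsUHom f)
    (v : IndA N) : (IndA.map hf v).s = f v.s := rfl

/-! ## Filtered modules -/

/-- filtered `IndM` -/
def FIndM (N : FUM) : FM RR.fil where
  X := IndM N.toUM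
  G i :=
    { carrier := {v | v.p ∈ N.fil i ∧ (∀ k, v.q k ∈ N.fil i) ∧ (∀ k, v.s k ∈ N.fil (i + 1))}
      add_mem' := by
        rintro v w ⟨h1, h2, h3⟩ ⟨g1, g2, g3⟩
        exact ⟨Submodule.add_mem _ h1 g1, fun k => Submodule.add_mem _ (h2 k) (g2 k),
          fun k => Submodule.add_mem _ (h3 k) (g3 k)⟩
      zero_mem' := ⟨Submodule.zero_mem _, fun _ => Submodule.zero_mem _,
        fun _ => Submodule.zero_mem _⟩
      neg_mem' := by
        rintro v ⟨h1, h2, h3⟩
        exact ⟨Submodule.neg_mem _ h1, fun k => Submodule.neg_mem _ (h2 k),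
          fun k => Submodule.neg_mem _ (h3 k)⟩ }
  smul_mem := by
    rintro i j r v ⟨h1, h2, h3, h4, h5⟩ ⟨g1, g2, g3⟩
    refine ⟨N.smul_mem h1 g1, fun k => ?_, fun k => ?_⟩
    · rw [IndM.smul_q]
      refine Submodule.add_mem _ (N.smul_mem (h4 k) g1) ?_
      rw [Matrix.Module.smul_apply]
      exact Submodule.sum_mem _ fun m _ => N.smul_mem (Δ_mem h2 _ _) (g2 m)
    · rw [IndM.smul_s]
      refine Submodule.add_mem _ (Submodule.add_mem _ ?_ ?_) ?_
      · have := N.smul_mem (h5 k) g1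
        rwa [show i + 1 + j = i + j + 1 by ring] at this
      · rw [Matrix.Module.smul_apply]
        refine Submodule.sum_mem _ fun m _ => ?_
        have := N.smul_mem (θΔ_mem h3 k m) (g2 m)
        rwa [show i + 1 + j = i + j + 1 by ring] at this
      · rw [Matrix.Module.smul_apply]
        refine Submodule.sum_mem _ fun m _ => ?_
        have := N.smul_mem (Δ_mem h1 k m) (g3 m)
        rwa [← add_assoc] at this

lemma FIndM.mem {N : FUM} {i : ℤ} {v : IndM N.toUM} : v ∈ (FIndM N).G i ↔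
    v.p ∈ N.fil i ∧ (∀ k, v.q k ∈ N.fil i) ∧ (∀ k, v.s k ∈ N.fil (i + 1)) := Iff.rfl

/-- filtered `GM` -/
def FGM {Na Nm : FUM} {φ : Na.carrier →ₗ[ℂ] Nm.carrier} (hφ : IsUHom φ)
    (hf : ∀ i, ∀ x ∈ Na.fil i, φ x ∈ Nm.fil i) : FM RR.fil where
  X := GM hφ
  G i :=
    { carrier := {v | v.q ∈ Na.fil i ∧ v.s ∈ Nm.fil i}
      add_mem' := by
        rintro v w ⟨h1, h2⟩ ⟨g1, g2⟩
        exact ⟨Submodule.add_mem _ h1 g1, Submodule.add_mem _ h2 g2⟩
      zero_mem' := ⟨Submodule.zero_mem _, Submodule.zero_mem _⟩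
      neg_mem' := by
        rintro v ⟨h1, h2⟩
        exact ⟨Submodule.neg_mem _ h1, Submodule.neg_mem _ h2⟩ }
  smul_mem := by
    rintro i j r v ⟨h1, h2, h3, h4, h5⟩ ⟨g1, g2⟩
    exact ⟨Na.smul_mem h2 g1, Submodule.add_mem _ (Nm.smul_mem h3 (hf _ _ g1))
      (Nm.smul_mem h1 g2)⟩

lemma FGM.mem {Na Nm : FUM} {φ : Na.carrier →ₗ[ℂ] Nm.carrier} {hφ : IsUHom φ}
    {hf : ∀ i, ∀ x ∈ Na.fil i, φ x ∈ Nm.fil i} {i : ℤ} {v : GM hφ} :
    v ∈ (FGM hφ hf).G i ↔ v.q ∈ Na.fil i ∧ v.s ∈ Nm.fil i := Iff.rfl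

/-- filtered `IndA` -/
abbrev FIndA (N : FUM) : FM RR.fil := FGM (isUHom_id N.toUM) (Na := N) (Nm := N) (fun _ _ h => h)

/-- filtered `BM` -/
def FBM (N : FUM) : FM RR.fil where
  X := BM N.toUM
  G i :=
    { carrier := {v | v.v ∈ N.fil i}
      add_mem' := by
        intro v w h g
        exact Submodule.add_mem _ h g
      zero_mem' := Submodule.zero_mem (N.fil i)
      neg_mem' := by
        intro v h
        exact Submodule.neg_mem (N.fil i) h }
  smul_mem := by
    rintro i j r v ⟨h1, h2, h3, h4, h5⟩ g1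
    exact N.smul_mem h1 g1

lemma FBM.mem {N : FUM} {i : ℤ} {v : BM N.toUM} : v ∈ (FBM N).G i ↔ v.v ∈ N.fil i := Iff.rfl

/-! ## exactness -/

/-- Windows of `IndM` of a filtered short exact sequence. -/
theorem indM_exact {N' N N'' : FUM} {f : N'.carrier →ₗ[ℂ] N.carrier}
    {g : N.carrier →ₗ[ℂ] N''.carrier} (h : SES N' N N'' f g) :
    ∃ (F : (FIndM N').Win →ₗ[WAR] (FIndM N).Win) (G : (FIndM N).Win →ₗ[WAR] (FIndM N'').Win),
      Function.Injective F ∧ Function.Exact F G ∧ Function.Surjective G := by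
  have hf : ∀ i, ∀ x ∈ (FIndM N').G i, (IndM.map h.hf : (FIndM N').X →ₗ[RR] (FIndM N).X) x ∈
      (FIndM N).G i := by
    rintro i x ⟨h1, h2, h3⟩
    exact ⟨h.ex.mapf _ _ h1, fun k => h.ex.mapf _ _ (h2 k), fun k => h.ex.mapf _ _ (h3 k)⟩
  have hg : ∀ i, ∀ x ∈ (FIndM N).G i, (IndM.map h.hg : (FIndM N).X →ₗ[RR] (FIndM N'').X) x ∈
      (FIndM N'').G i := by
    rintro i x ⟨h1, h2, h3⟩
    exact ⟨h.ex.mapg _ _ h1, fun k => h.ex.mapg _ _ (h2 k), fun k => h.ex.mapg _ _ (h3 k)⟩
  refine ⟨FM.winMap RR.ringFil _ hf, FM.winMap RR.ringFil _ hg, ?_, ?_, ?_⟩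
  · refine FM.winMap_injective ?_
    intro x hx
    have hx' : IndM.map h.hf x = 0 := hx
    have hinj := (injective_iff_map_eq_zero f).1 h.ex.inj
    refine IndM.ext ?_ ?_ ?_
    · exact hinj _ (congrArg IndM.p hx')
    · funext k; exact hinj _ (congrFun (congrArg IndM.q hx') k)
    · funext k; exact hinj _ (congrFun (congrArg IndM.s hx') k)
  · refine FM.winMap_exact ?_ ?_
    · intro x
      refine IndM.ext ?_ ?_ ?_
      · exact h.ex.comp _
      · funext k; exact h.ex.comp _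
      · funext k; exact h.ex.comp _
    · rintro i z ⟨h1, h2, h3⟩ hz
      have hz' : IndM.map h.hg z = 0 := hz
      obtain ⟨p, hp, hp'⟩ := h.ex.lift _ _ h1 (congrArg IndM.p hz')
      choose q hq hq' using fun k => h.ex.lift _ _ (h2 k) (congrFun (congrArg IndM.q hz') k)
      choose s hs hs' using fun k => h.ex.lift _ _ (h3 k) (congrFun (congrArg IndM.s hz') k)
      refine ⟨IndM.mk p q s, ⟨hp, hq, hs⟩, ?_⟩
      exact IndM.ext hp' (funext hq') (funext hs')
  · refine FM.winMap_surjective ?_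
    rintro i z ⟨h1, h2, h3⟩
    obtain ⟨p, hp, hp'⟩ := h.ex.surj _ _ h1
    choose q hq hq' using fun k => h.ex.surj _ _ (h2 k)
    choose s hs hs' using fun k => h.ex.surj _ _ (h3 k)
    refine ⟨IndM.mk p q s, ⟨hp, hq, hs⟩, ?_⟩
    exact IndM.ext hp' (funext hq') (funext hs')

/-- Windows of `IndA` of a filtered short exact sequence. -/
theorem indA_exact {N' N N'' : FUM} {f : N'.carrier →ₗ[ℂ] N.carrier}
    {g : N.carrier →ₗ[ℂ] N''.carrier} (h : SES N' N N'' f g) :
    ∃ (F : (FIndA N').Win →ₗ[WAR] (FIndA N).Win) (G : (FIndA N).Win →ₗ[WAR] (FIndA N'').Win),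
      Function.Injective F ∧ Function.Exact F G ∧ Function.Surjective G := by
  have hf : ∀ i, ∀ x ∈ (FIndA N').G i, (IndA.map h.hf : (FIndA N').X →ₗ[RR] (FIndA N).X) x ∈
      (FIndA N).G i := by
    rintro i x ⟨h1, h2⟩
    exact ⟨h.ex.mapf _ _ h1, h.ex.mapf _ _ h2⟩
  have hg : ∀ i, ∀ x ∈ (FIndA N).G i, (IndA.map h.hg : (FIndA N).X →ₗ[RR] (FIndA N'').X) x ∈
      (FIndA N'').G i := by
    rintro i x ⟨h1, h2⟩
    exact ⟨h.ex.mapg _ _ h1, h.ex.mapg _ _ h2⟩
  refine ⟨FM.winMap RR.ringFil _ hf, FM.winMap RR.ringFil _ hg, ?_, ?_, ?_⟩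
  · refine FM.winMap_injective ?_
    intro x hx
    have hx' : IndA.map h.hf x = 0 := hx
    have hinj := (injective_iff_map_eq_zero f).1 h.ex.inj
    refine GM.ext (hφ := isUHom_id N'.toUM) ?_ ?_
    · exact hinj _ (congrArg GM.q hx')
    · exact hinj _ (congrArg GM.s hx')
  · refine FM.winMap_exact ?_ ?_
    · intro x
      refine GM.ext (hφ := isUHom_id N''.toUM) ?_ ?_
      · exact h.ex.comp _
      · exact h.ex.comp _
    · rintro i z ⟨h1, h2⟩ hz
      have hz' : IndA.map h.hg z = 0 := hz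
      obtain ⟨q, hq, hq'⟩ := h.ex.lift _ _ h1 (congrArg GM.q hz')
      obtain ⟨s, hs, hs'⟩ := h.ex.lift _ _ h2 (congrArg GM.s hz')
      refine ⟨GM.mk (isUHom_id _) q s, ⟨hq, hs⟩, ?_⟩
      exact GM.ext (hφ := isUHom_id N.toUM) hq' hs'
  · refine FM.winMap_surjective ?_
    rintro i z ⟨h1, h2⟩
    obtain ⟨q, hq, hq'⟩ := h.ex.surj _ _ h1
    obtain ⟨s, hs, hs'⟩ := h.ex.surj _ _ h2
    refine ⟨GM.mk (isUHom_id _) q s, ⟨hq, hs⟩, ?_⟩
    exact GM.ext (hφ := isUHom_id N''.toUM) hq' hs'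

/-! ## Free filtered modules -/

lemma mul_εm_iff {r : RR} : r * RR.εm = r ↔ r.ua = 0 ∧ r.io = 0 := by
  rw [RR.mul_εm]
  constructor
  · intro h
    exact ⟨(congrArg RR.ua h).symm, (congrArg RR.io h).symm⟩
  · rintro ⟨h1, h2⟩
    exact RR.ext rfl h1.symm h2.symm rfl rfl

lemma mul_εa_iff {r : RR} : r * RR.εa = r ↔ r.um = 0 ∧ r.x = 0 ∧ r.y = 0 := by
  rw [RR.mul_εa]
  constructor
  · intro h
    exact ⟨(congrArg RR.um h).symm, (congrArg RR.x h).symm, (congrArg RR.y h).symm⟩
  · rintro ⟨h1, h2, h3⟩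
    exact RR.ext h1.symm rfl rfl h2.symm h3.symm

/-- evaluation `RR ε → X`, `r ↦ r • x`, on powers -/
def evalPow (hF : RingFil RR.fil) {ε : RR} (s : ℤ) {J : Type} [Fintype J] {X : Type}
    [AddCommGroup X] [Module RR X] (x : J → X) :
    ((colFM hF ε s).pow J).X →ₗ[RR] X where
  toFun r := ∑ j, colVal (r j) • x j
  map_add' r t := by
    rw [← Finset.sum_add_distrib]
    refine Finset.sum_congr rfl fun j _ => ?_
    rw [← add_smul, ← map_add]; rfl
  map_smul' c r := by
    rw [RingHom.id_apply, Finset.smul_sum]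
    refine Finset.sum_congr rfl fun j _ => ?_
    rw [← mul_smul, ← smul_eq_mul, ← map_smul]; rfl


section sums
variable {N : UM} {J : Type} [Fintype J]

lemma IndM.sum_p (w : J → IndM N) : (∑ j, w j).p = ∑ j, (w j).p :=
  map_sum (⟨⟨IndM.p, rfl⟩, fun _ _ => rfl⟩ : IndM N →+ N.carrier) w _
lemma IndM.sum_q (w : J → IndM N) : (∑ j, w j).q = ∑ j, (w j).q :=
  map_sum (⟨⟨IndM.q, rfl⟩, fun _ _ => rfl⟩ : IndM N →+ (Fin 2 → N.carrier)) w _
lemma IndM.sum_s (w : J → IndM N) : (∑ j, w j).s = ∑ j, (w j).s :=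
  map_sum (⟨⟨IndM.s, rfl⟩, fun _ _ => rfl⟩ : IndM N →+ (Fin 2 → N.carrier)) w _
lemma IndA.sum_q (w : J → IndA N) : (∑ j, w j).q = ∑ j, (w j).q :=
  map_sum (⟨⟨GM.q, rfl⟩, fun _ _ => rfl⟩ : IndA N →+ N.carrier) w _
lemma IndA.sum_s (w : J → IndA N) : (∑ j, w j).s = ∑ j, (w j).s :=
  map_sum (⟨⟨GM.s, rfl⟩, fun _ _ => rfl⟩ : IndA N →+ N.carrier) w _
end sums

/-- The window of `IndM` of a free filtered module is a power of the window of `RR RR.εm(-s)`. -/
theorem indM_free {N : FUM} {J : Type} [Fintype J] {n : J → N.carrier} (h : IsFilFree N n)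
    (s : ℤ) : Nonempty (((colFM RR.ringFil RR.εm s).pow J).Win ≃ₗ[WAR] (FIndM (N.shift s)).Win) := by
  let w : J → IndM N.toUM := fun j => IndM.mk (n j) 0 0
  let Ψ : ((colFM RR.ringFil RR.εm s).pow J).X →ₗ[RR] (FIndM (N.shift s)).X :=
    evalPow RR.ringFil s (X := IndM N.toUM) w
  have hΨ : ∀ r, Ψ r = IndM.mk (∑ j, (colVal (r j) : RR).um • n j)
      (fun k => ∑ j, (colVal (r j) : RR).x k • n j)
      (fun k => ∑ j, (colVal (r j) : RR).y k • n j) := by
    intro r
    change (∑ j, (colVal (r j) : RR) • w j : IndM N.toUM) = _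
    refine IndM.ext ?_ ?_ ?_
    · rw [IndM.sum_p]; rfl
    · rw [IndM.sum_q]; funext k; simp [w]
    · rw [IndM.sum_s]; funext k; simp [w]
  have hmap : ∀ i, ∀ r ∈ ((colFM RR.ringFil RR.εm s).pow J).G i, Ψ r ∈ (FIndM (N.shift s)).G i := by
    intro i r hr
    rw [hΨ]
    have hr' : ∀ j, (colVal (r j) : RR) ∈ RR.fil (i - s) := hr
    refine ⟨?_, fun k => ?_, fun k => ?_⟩
    · change _ ∈ N.fil (i - s)
      refine Submodule.sum_mem _ fun j _ => ?_
      have := N.smul_mem (hr' j).1 (h.mem j)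
      rwa [add_zero] at this
    · change _ ∈ N.fil (i - s)
      refine Submodule.sum_mem _ fun j _ => ?_
      have := N.smul_mem ((hr' j).2.2.2.1 k) (h.mem j)
      rwa [add_zero] at this
    · change _ ∈ N.fil (i + 1 - s)
      refine Submodule.sum_mem _ fun j _ => ?_
      have := N.smul_mem ((hr' j).2.2.2.2 k) (h.mem j)
      rwa [add_zero, show i - s + 1 = i + 1 - s by ring] at this
  refine ⟨LinearEquiv.ofBijective (FM.winMap RR.ringFil Ψ hmap) ⟨?_, ?_⟩⟩
  · refine FM.winMap_injective ?_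
    intro r hr
    rw [hΨ] at hr
    have hr : IndM.mk (∑ j, (colVal (r j) : RR).um • n j)
      (fun k => ∑ j, (colVal (r j) : RR).x k • n j)
      (fun k => ∑ j, (colVal (r j) : RR).y k • n j) = (0 : IndM N.toUM) := hr
    have h1 := h.inj _ (congrArg IndM.p hr)
    have h2 := fun k => h.inj _ (congrFun (congrArg IndM.q hr) k)
    have h3 := fun k => h.inj _ (congrFun (congrArg IndM.s hr) k)
    funext j
    apply colVal_injective
    obtain ⟨e1, e2⟩ := mul_εm_iff.1 (colVal_mul (r j))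
    refine RR.ext (h1 j) e1 e2 ?_ ?_
    · funext k; exact h2 k j
    · funext k; exact h3 k j
  · refine FM.winMap_surjective ?_
    rintro i z ⟨h1, h2, h3⟩
    have h1' : IndM.p (z : IndM N.toUM) ∈ N.fil (i - s) := h1
    have h2' : ∀ k, IndM.q (z : IndM N.toUM) k ∈ N.fil (i - s) := h2
    have h3' : ∀ k, IndM.s (z : IndM N.toUM) k ∈ N.fil (i + 1 - s) := h3
    obtain ⟨a, ha, ha'⟩ := h.surj _ _ h1'
    choose b hb hb' using fun k => h.surj _ _ (h2' k)
    choose c hc hc' using fun k => h.surj _ _ (h3' k)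
    refine ⟨fun j => colMk RR.ringFil s (RR.mk (a j) 0 0 (fun k => b k j) (fun k => c k j))
      (mul_εm_iff.2 ⟨rfl, rfl⟩), ?_, ?_⟩
    · intro j
      change RR.mk (a j) 0 0 (fun k => b k j) (fun k => c k j) ∈ RR.fil (i - s)
      refine ⟨ha j, Submodule.zero_mem _, Submodule.zero_mem _, fun k => hb k j, fun k => ?_⟩
      have := hc k j
      rwa [show i + 1 - s = i - s + 1 by ring] at this
    · rw [hΨ]
      exact IndM.ext ha' (funext hb') (funext hc')

/-- The window of `IndA` of a free filtered module is a power of the window of `RR RR.εa(-s)`. -/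
theorem indA_free {N : FUM} {J : Type} [Fintype J] {n : J → N.carrier} (h : IsFilFree N n)
    (s : ℤ) : Nonempty (((colFM RR.ringFil RR.εa s).pow J).Win ≃ₗ[WAR] (FIndA (N.shift s)).Win) := by
  let w : J → IndA N.toUM := fun j => GM.mk _ (n j) 0
  let Ψ : ((colFM RR.ringFil RR.εa s).pow J).X →ₗ[RR] (FIndA (N.shift s)).X :=
    evalPow RR.ringFil s (X := IndA N.toUM) w
  have hΨ : ∀ r, Ψ r = GM.mk (isUHom_id N.toUM) (∑ j, (colVal (r j) : RR).ua • n j)
      (∑ j, (colVal (r j) : RR).io • n j) := by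
    intro r
    change (∑ j, (colVal (r j) : RR) • w j : IndA N.toUM) = _
    refine GM.ext ?_ ?_
    · rw [IndA.sum_q]; rfl
    · rw [IndA.sum_s]; simp [w]
  have hmap : ∀ i, ∀ r ∈ ((colFM RR.ringFil RR.εa s).pow J).G i, Ψ r ∈ (FIndA (N.shift s)).G i := by
    intro i r hr
    rw [hΨ]
    have hr' : ∀ j, (colVal (r j) : RR) ∈ RR.fil (i - s) := hr
    refine ⟨?_, ?_⟩
    · change _ ∈ N.fil (i - s)
      refine Submodule.sum_mem _ fun j _ => ?_
      have := N.smul_mem (hr' j).2.1 (h.mem j)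
      rwa [add_zero] at this
    · change _ ∈ N.fil (i - s)
      refine Submodule.sum_mem _ fun j _ => ?_
      have := N.smul_mem (hr' j).2.2.1 (h.mem j)
      rwa [add_zero] at this
  refine ⟨LinearEquiv.ofBijective (FM.winMap RR.ringFil Ψ hmap) ⟨?_, ?_⟩⟩
  · refine FM.winMap_injective ?_
    intro r hr
    rw [hΨ] at hr
    have hr : GM.mk (isUHom_id N.toUM) (∑ j, (colVal (r j) : RR).ua • n j)
      (∑ j, (colVal (r j) : RR).io • n j) = (0 : IndA N.toUM) := hr
    have h1 := h.inj _ (congrArg GM.q hr)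
    have h2 := h.inj _ (congrArg GM.s hr)
    funext j
    apply colVal_injective
    obtain ⟨e1, e2, e3⟩ := mul_εa_iff.1 (colVal_mul (r j))
    exact RR.ext e1 (h1 j) (h2 j) e2 e3
  · refine FM.winMap_surjective ?_
    rintro i z ⟨h1, h2⟩
    have h1' : GM.q (z : IndA N.toUM) ∈ N.fil (i - s) := h1
    have h2' : GM.s (z : IndA N.toUM) ∈ N.fil (i - s) := h2
    obtain ⟨a, ha, ha'⟩ := h.surj _ _ h1'
    obtain ⟨b, hb, hb'⟩ := h.surj _ _ h2'
    refine ⟨fun j => colMk RR.ringFil s (RR.mk 0 (a j) (b j) 0 0) (mul_εa_iff.2 ⟨rfl, rfl, rfl⟩), ?_, ?_⟩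
    · intro j
      change RR.mk 0 (a j) (b j) 0 0 ∈ RR.fil (i - s)
      exact ⟨Submodule.zero_mem _, ha j, hb j, fun _ => Submodule.zero_mem _,
        fun _ => Submodule.zero_mem _⟩
    · rw [hΨ]
      exact GM.ext ha' hb'

/-- (free) in the shape used by the assembly, main block -/
theorem indM_free' {N : FUM} {J : Type} [Fintype J] {n : J → N.carrier} (h : IsFilFree N n)
    (s : Fin 5) : Nonempty ((FIndM (N.shift (vi s))).Win ≃ₗ[WAR]
      (J → (colFM RR.ringFil RR.εm (vi s)).Win)) := by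
  obtain ⟨e⟩ := indM_free h (vi s)
  exact ⟨e.symm.trans (FM.winPow RR.ringFil _ J)⟩

/-- (free) in the shape used by the assembly, aux block -/
theorem indA_free' {N : FUM} {J : Type} [Fintype J] {n : J → N.carrier} (h : IsFilFree N n)
    (s : Fin 5) : Nonempty ((FIndA (N.shift (vi s))).Win ≃ₗ[WAR]
      (J → (colFM RR.ringFil RR.εa (vi s)).Win)) := by
  obtain ⟨e⟩ := indA_free h (vi s)
  exact ⟨e.symm.trans (FM.winPow RR.ringFil _ J)⟩

end Crest.Agent.R178B
end
end

-- ▼ part R178B/Ind3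
section

/-!
Row 178 (S0268), version B: the constant windows `BM N`, `GM θ` and the two exact sequences.
-/

set_option autoImplicit false
set_option linter.all false

open scoped Matrix.Module

noncomputable section

namespace Crest.Agent.R178B

open Matrix

/-! ## windows only see degrees `0..4` -/

section
variable {Y Z W : FM RR.fil}

/-- maps on windows -/
def winMap5 (f : Y.X →ₗ[RR] Z.X) (hf : ∀ i : Fin 5, ∀ x ∈ Y.G (vi i), f x ∈ Z.G (vi i)) :
    Y.Win →ₗ[WAR] Z.Win where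
  toFun v := Z.mkWin (fun i => f (v.c i)) (fun i => hf _ _ (v.mem i))
  map_add' v w := by
    ext i
    simp
  map_smul' M v := by
    ext i
    change f ((M • v).c i) = ∑ j, M.1 i j • f (v.c j)
    rw [FM.Win.smul_c, map_sum]
    simp

lemma winMap5_injective {f : Y.X →ₗ[RR] Z.X}
    {hf : ∀ i : Fin 5, ∀ x ∈ Y.G (vi i), f x ∈ Z.G (vi i)} (h : ∀ x, f x = 0 → x = 0) :
    Function.Injective (winMap5 f hf) := by
  rw [injective_iff_map_eq_zero]
  intro v hv
  ext i
  exact h _ (congrArg (fun w : Z.Win => w.c i) hv)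

lemma winMap5_surjective {f : Y.X →ₗ[RR] Z.X}
    {hf : ∀ i : Fin 5, ∀ x ∈ Y.G (vi i), f x ∈ Z.G (vi i)}
    (h : ∀ i : Fin 5, ∀ z ∈ Z.G (vi i), ∃ y ∈ Y.G (vi i), f y = z) :
    Function.Surjective (winMap5 f hf) := by
  intro w
  choose y hy hy' using fun i => h _ _ (w.mem i)
  refine ⟨Y.mkWin y hy, ?_⟩
  ext i
  exact hy' i

lemma winMap5_exact {f : Y.X →ₗ[RR] Z.X} {g : Z.X →ₗ[RR] W.X}
    {hf : ∀ i : Fin 5, ∀ x ∈ Y.G (vi i), f x ∈ Z.G (vi i)}
    {hg : ∀ i : Fin 5, ∀ x ∈ Z.G (vi i), g x ∈ W.G (vi i)}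
    (h0 : ∀ x, g (f x) = 0)
    (h : ∀ i : Fin 5, ∀ z ∈ Z.G (vi i), g z = 0 → ∃ y ∈ Y.G (vi i), f y = z) :
    Function.Exact (winMap5 f hf) (winMap5 g hg) := by
  intro w
  constructor
  · intro hw
    have hw' : ∀ i, g (w.c i) = 0 := fun i => congrArg (fun w : W.Win => w.c i) hw
    choose y hy hy' using fun i => h _ _ (w.mem i) (hw' i)
    refine ⟨Y.mkWin y hy, ?_⟩
    ext i
    exact hy' i
  · rintro ⟨v, rfl⟩
    ext i
    exact h0 _

end

/-- constant filtered module -/
def cFM (X : Type) [AddCommGroup X] [Module RR X] : FM RR.fil where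
  X := X
  G _ := ⊤
  smul_mem := fun _ _ => trivial

lemma cFM.mem (X : Type) [AddCommGroup X] [Module RR X] (i : ℤ) (x : X) :
    x ∈ (cFM X).G i := trivial

lemma UM.triv_mem (N : UM) (i : Fin 5) (x : N.carrier) : x ∈ N.triv.fil (vi i) := by
  change x ∈ trivFil N.carrier (vi i)
  unfold trivFil
  rw [if_pos (by positivity)]
  trivial

lemma UM.triv_mem' (N : UM) (i : Fin 5) (x : N.carrier) : x ∈ N.triv.fil (vi i + 1) := by
  change x ∈ trivFil N.carrier (vi i + 1)
  unfold trivFil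
  rw [if_pos (by positivity)]
  trivial

/-! ## `θ` on modules -/

/-- underlying pair -/
def UM.un (N : UM) (v : N.tw.carrier) : Fin 2 → N.carrier := v

lemma UM.un_inj (N : UM) {v w : N.tw.carrier} (h : N.un v = N.un w) : v = w := h

@[simp] lemma UM.un_add (N : UM) (v w : N.tw.carrier) : N.un (v + w) = N.un v + N.un w := rfl

lemma UM.θ_apply (N : UM) (v : N.tw.carrier) :
    N.un (N.θ v) = Crest.Agent.R178B.θ • N.un v := by
  change (mat2 (N.a + 1) N.f N.e (N.d + 1) : Module.End ℂ (Fin 2 → N.carrier)) (N.un v) = _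
  funext k
  fin_cases k <;> simp [Crest.Agent.R178B.θ, Matrix.Module.smul_apply, add_smul] <;> abel

lemma UM.tw_smul' (N : UM) (u : U) (v : N.tw.carrier) : N.un (u • v) = Δ u • N.un v :=
  N.tw_smul u v

lemma UM.θ_smul (N : UM) (u : U) (v : N.tw.carrier) : N.θ (u • v) = u • N.θ v := by
  apply N.un_inj
  rw [UM.θ_apply, UM.tw_smul', UM.tw_smul', UM.θ_apply]
  rw [← mul_smul, ← mul_smul, θ_comm]

lemma UM.θ_hom (N : UM) : IsUHom (N := N.tw) (N' := N.tw) N.θ where
  a x := by rw [← UM.a_smul, ← UM.a_smul]; exact N.θ_smul _ _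
  d x := by rw [← UM.d_smul, ← UM.d_smul]; exact N.θ_smul _ _
  e x := by rw [← UM.e_smul, ← UM.e_smul]; exact N.θ_smul _ _
  f x := by rw [← UM.f_smul, ← UM.f_smul]; exact N.θ_smul _ _

/-- `G(θ_N)`, constant filtration -/
abbrev GT (N : UM) : Type := GM N.θ_hom

/-- `Const G(θ)` -/
def GMc (N : UM) : FM RR.fil := cFM (GT N)
/-- `Const (block m, N)` -/
def BMc (N : UM) : FM RR.fil := cFM (BM N)

/-- `G(θ) → Ind_m N`, `(q, s) ↦ (0, q, s)` -/
def GTtoIndM (N : UM) : GT N →ₗ[RR] IndM N where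
  toFun v := IndM.mk 0 (N.un v.q) (N.un v.s)
  map_add' v w := by
    refine IndM.ext ?_ ?_ ?_
    · simp
    · rfl
    · rfl
  map_smul' r v := by
    refine IndM.ext ?_ ?_ ?_
    · simp
    · simp only [IndM.mk_q, GM.smul_q, RingHom.id_apply, IndM.smul_q, IndM.mk_p, cp_zero, zero_add]
      exact N.tw_smul' _ _
    · simp only [IndM.mk_s, IndM.mk_q, GM.smul_s, RingHom.id_apply, IndM.smul_s, IndM.mk_p,
        cp_zero, zero_add, UM.un_add]
      rw [← N.θ_smul, UM.θ_apply, UM.tw_smul', UM.tw_smul', mul_smul]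

/-- `Ind_m N → N` -/
def IndMtoBM (N : UM) : IndM N →ₗ[RR] BM N where
  toFun v := BM.mk v.p
  map_add' v w := rfl
  map_smul' r v := rfl

/-- **First sequence**: `0 → G(θ) → Ind_m N → N → 0`. -/
theorem seq1 (N : UM) :
    ∃ (F : (GMc N).Win →ₗ[WAR] (FIndM N.triv).Win) (G : (FIndM N.triv).Win →ₗ[WAR] (BMc N).Win),
      Function.Injective F ∧ Function.Exact F G ∧ Function.Surjective G := by
  have hf : ∀ i : Fin 5, ∀ x ∈ (GMc N).G (vi i),
      (GTtoIndM N : (GMc N).X →ₗ[RR] (FIndM N.triv).X) x ∈ (FIndM N.triv).G (vi i) := by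
    intro i x _
    exact ⟨N.triv_mem i _, fun k => N.triv_mem i _, fun k => N.triv_mem' i _⟩
  have hg : ∀ i : Fin 5, ∀ x ∈ (FIndM N.triv).G (vi i),
      (IndMtoBM N : (FIndM N.triv).X →ₗ[RR] (BMc N).X) x ∈ (BMc N).G (vi i) := by
    intro i x _
    trivial
  refine ⟨winMap5 _ hf, winMap5 _ hg, ?_, ?_, ?_⟩
  · refine winMap5_injective ?_
    intro x hx
    have hx' : IndM.mk 0 (GM.q x) (GM.s x) = (0 : IndM N) := hx
    exact GM.ext (hφ := N.θ_hom) (congrArg IndM.q hx') (congrArg IndM.s hx')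
  · refine winMap5_exact ?_ ?_
    · intro x; rfl
    · intro i z _ hz
      refine ⟨GM.mk N.θ_hom (IndM.q z) (IndM.s z), trivial, ?_⟩
      have hz' : IndM.p z = 0 := hz
      exact IndM.ext hz'.symm rfl rfl
  · refine winMap5_surjective ?_
    intro i z _
    refine ⟨IndM.mk (BM.v z) 0 0, ⟨N.triv_mem i _, fun k => N.triv_mem i _,
      fun k => N.triv_mem' i _⟩, rfl⟩

/-- `N' → Ind_a N^tw`, `x ↦ (0, i x)` -/
def BMtoIndA {N' N : UM} {i : N'.carrier →ₗ[ℂ] N.tw.carrier} (hi : IsUHom i) :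
    BM N' →ₗ[RR] IndA N.tw where
  toFun v := GM.mk _ 0 (i v.v)
  map_add' v w := by
    ext1 <;> simp
  map_smul' r v := by
    ext1
    · simp
    · simp [hi.smul]

/-- `Ind_a N^tw → G(θ)`, `(q, s) ↦ (q, θ s)` -/
def IndAtoGT (N : UM) : IndA N.tw →ₗ[RR] GT N where
  toFun v := GM.mk _ v.q (N.θ v.s)
  map_add' v w := by
    ext1 <;> simp
  map_smul' r v := by
    ext1
    · simp
    · simp [N.θ_smul]

/-- `G(θ) → N'`, `(q, s) ↦ p s` -/
def GTtoBM {N' N : UM} {p : N.tw.carrier →ₗ[ℂ] N'.carrier} (hp : IsUHom p)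
    (h0 : ∀ x, p (N.θ x) = 0) : GT N →ₗ[RR] BM N' where
  toFun v := BM.mk (p v.s)
  map_add' v w := by
    ext1; simp
  map_smul' r v := by
    ext1
    simp [hp.smul, h0]

/-- **Second sequence**: `0 → N' → Ind_a (V ⊗ N) → G(θ) → N' → 0`. -/
theorem seq2 (N' N : UM) (i : N'.carrier →ₗ[ℂ] N.tw.carrier) (p : N.tw.carrier →ₗ[ℂ] N'.carrier)
    (hi : IsUHom i) (hp : IsUHom p) (hinj : Function.Injective i) (hex1 : Function.Exact i N.θ)
    (hex2 : Function.Exact N.θ p) (hsurj : Function.Surjective p) :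
    ∃ (F : (BMc N').Win →ₗ[WAR] (FIndA N.tw.triv).Win)
      (G : (FIndA N.tw.triv).Win →ₗ[WAR] (GMc N).Win)
      (H : (GMc N).Win →ₗ[WAR] (BMc N').Win),
      Function.Injective F ∧ Function.Exact F G ∧ Function.Exact G H ∧ Function.Surjective H := by
  have h0 : ∀ x, p (N.θ x) = 0 := fun x => (hex2 _).2 ⟨x, rfl⟩
  have hf : ∀ j : Fin 5, ∀ x ∈ (BMc N').G (vi j),
      (BMtoIndA hi : (BMc N').X →ₗ[RR] (FIndA N.tw.triv).X) x ∈ (FIndA N.tw.triv).G (vi j) := by
    intro j x _
    exact ⟨N.tw.triv_mem j _, N.tw.triv_mem j _⟩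
  have hg : ∀ j : Fin 5, ∀ x ∈ (FIndA N.tw.triv).G (vi j),
      (IndAtoGT N : (FIndA N.tw.triv).X →ₗ[RR] (GMc N).X) x ∈ (GMc N).G (vi j) :=
    fun _ _ _ => trivial
  have hh : ∀ j : Fin 5, ∀ x ∈ (GMc N).G (vi j),
      (GTtoBM hp h0 : (GMc N).X →ₗ[RR] (BMc N').X) x ∈ (BMc N').G (vi j) :=
    fun _ _ _ => trivial
  refine ⟨winMap5 _ hf, winMap5 _ hg, winMap5 _ hh, ?_, ?_, ?_, ?_⟩
  · refine winMap5_injective ?_
    intro x hx
    have hx' : GM.mk (isUHom_id N.tw) 0 (i (BM.v x)) = 0 := hx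
    exact BM.ext ((injective_iff_map_eq_zero i).1 hinj _ (congrArg GM.s hx'))
  · refine winMap5_exact ?_ ?_
    · intro x
      have : N.θ (i (BM.v x)) = 0 := (hex1 _).2 ⟨_, rfl⟩
      exact GM.ext (hφ := N.θ_hom) rfl this
    · intro j z _ hz
      have hz' : GM.mk N.θ_hom (GM.q (hφ := isUHom_id N.tw) z)
        (N.θ (GM.s (hφ := isUHom_id N.tw) z)) = 0 := hz
      have h1 : GM.q (hφ := isUHom_id N.tw) z = 0 := congrArg GM.q hz'
      have h2 : N.θ (GM.s (hφ := isUHom_id N.tw) z) = 0 := congrArg GM.s hz'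
      obtain ⟨y, hy⟩ := (hex1 _).1 h2
      exact ⟨BM.mk y, trivial, GM.ext (hφ := isUHom_id N.tw) h1.symm hy⟩
  · refine winMap5_exact ?_ ?_
    · intro x
      exact BM.ext (h0 _)
    · intro j z _ hz
      have hz' : p (GM.s z) = 0 := hz
      obtain ⟨y, hy⟩ := (hex2 _).1 hz'
      exact ⟨GM.mk (isUHom_id N.tw) (GM.q (hφ := N.θ_hom) z) y,
        ⟨N.tw.triv_mem j _, N.tw.triv_mem j _⟩, GM.ext (hφ := N.θ_hom) rfl hy⟩
  · refine winMap5_surjective ?_
    intro j z _
    obtain ⟨y, hy⟩ := hsurj (BM.v z)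
    exact ⟨GM.mk N.θ_hom 0 y, trivial, BM.ext hy⟩

/-- If `θ` is bijective on `V ⊗ N` then `Ind_a (V ⊗ N) ≃ G(θ)`. -/
theorem seq3 (N : UM) (h : Function.Bijective N.θ) :
    Nonempty ((FIndA N.tw.triv).Win ≃ₗ[WAR] (GMc N).Win) := by
  have hg : ∀ j : Fin 5, ∀ x ∈ (FIndA N.tw.triv).G (vi j),
      (IndAtoGT N : (FIndA N.tw.triv).X →ₗ[RR] (GMc N).X) x ∈ (GMc N).G (vi j) :=
    fun _ _ _ => trivial
  refine ⟨LinearEquiv.ofBijective (winMap5 _ hg) ⟨winMap5_injective ?_, winMap5_surjective ?_⟩⟩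
  · intro z hz
    have hz' : GM.mk N.θ_hom (GM.q (hφ := isUHom_id N.tw) z)
      (N.θ (GM.s (hφ := isUHom_id N.tw) z)) = 0 := hz
    have h1 : GM.q (hφ := isUHom_id N.tw) z = 0 := congrArg GM.q hz'
    have h2 : N.θ (GM.s (hφ := isUHom_id N.tw) z) = 0 := congrArg GM.s hz'
    exact GM.ext (hφ := isUHom_id N.tw) h1 ((injective_iff_map_eq_zero N.θ).1 h.1 _ h2)
  · intro j z _
    obtain ⟨y, hy⟩ := h.2 (GM.s (hφ := N.θ_hom) z)
    exact ⟨GM.mk (isUHom_id N.tw) (GM.q (hφ := N.θ_hom) z) y,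
      ⟨N.tw.triv_mem j _, N.tw.triv_mem j _⟩, GM.ext (hφ := N.θ_hom) rfl hy⟩

/-- The window of a finite-dimensional module is finitely generated. -/
theorem BMc_finite (N : UM) [Module.Finite ℂ N.carrier] : Module.Finite WAR (BMc N).Win := by
  letI : Module ℂ (BMc N).Win := Module.compHom _ (algebraMap ℂ WAR)
  have hs : ∀ (c : ℂ) (v : (BMc N).Win), c • v = (algebraMap ℂ WAR c) • v := fun _ _ => rfl
  haveI : IsScalarTower ℂ WAR (BMc N).Win := ⟨fun c M v => by
    rw [hs, Algebra.smul_def, mul_smul]⟩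
  have hc : ∀ (c : ℂ) (v : (BMc N).Win) (i : Fin 5),
      BM.v ((c • v).c i) = c • BM.v (v.c i) := by
    intro c v i
    rw [hs, FM.Win.smul_c, Finset.sum_eq_single i]
    · have h1 : (algebraMap ℂ WAR c).1 i i = algebraMap ℂ RR c := by
        change (algebraMap ℂ (Matrix (Fin 5) (Fin 5) RR) c) i i = _
        rw [Matrix.algebraMap_matrix_apply, if_pos rfl]
      rw [h1, Algebra.algebraMap_eq_smul_one]
      change ((c • (1 : RR)).um) • BM.v (v.c i) = _
      rw [RR.smul_um, RR.one_um, smul_assoc, one_smul]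
    · intro j _ hj
      have h1 : (algebraMap ℂ WAR c).1 i j = 0 := by
        change (algebraMap ℂ (Matrix (Fin 5) (Fin 5) RR) c) i j = _
        rw [Matrix.algebraMap_matrix_apply, if_neg (Ne.symm hj)]
      rw [h1, zero_smul]
    · intro h
      exact absurd (Finset.mem_univ _) h
  let φ : (BMc N).Win →ₗ[ℂ] (Fin 5 → N.carrier) :=
    { toFun := fun v i => BM.v (v.c i)
      map_add' := fun v w => rfl
      map_smul' := fun c v => funext fun i => hc c v i }
  have hφ : Function.Injective φ := by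
    intro v w h
    exact FM.Win.ext fun i => congrFun h i
  haveI : Module.Finite ℂ (BMc N).Win := Module.Finite.of_injective φ hφ
  exact Module.Finite.of_restrictScalars_finite ℂ WAR _

end Crest.Agent.R178B
end
end

-- ▼ part R178B/Assembly
section

/-!
Row 178 (S0268), team B: the abstract final assembly.
-/

set_option autoImplicit false

noncomputable section

namespace Crest.Agent.R178B

open Crest.Agent.R178

/-! ## Shifts -/

lemma FUM.shift_zero' (N : FUM) : N.shift (((0 : ℕ) : ℤ)) = N := by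
  cases N
  simp [FUM.shift]

lemma SES.shift' {N' N N'' : FUM} {f : N'.carrier →ₗ[ℂ] N.carrier}
    {g : N.carrier →ₗ[ℂ] N''.carrier} (h : SES (N'.shift 1) N N'' f g) (s : ℕ) :
    SES (N'.shift ((s + 1 : ℕ) : ℤ)) (N.shift (s : ℤ)) (N''.shift (s : ℤ)) f g where
  hf := ⟨h.hf.a, h.hf.d, h.hf.e, h.hf.f⟩
  hg := ⟨h.hg.a, h.hg.d, h.hg.e, h.hg.f⟩
  ex :=
    { inj := h.ex.inj
      comp := h.ex.comp
      mapf := by
        intro i x hx
        apply h.ex.mapf (i - s) x
        have e : i - ((s + 1 : ℕ) : ℤ) = i - s - 1 := by push_cast; ring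
        change x ∈ N'.fil (i - ((s + 1 : ℕ) : ℤ)) at hx
        rw [e] at hx
        exact hx
      mapg := fun i x hx => h.ex.mapg (i - s) x hx
      lift := by
        intro i x hx h0
        obtain ⟨y, hy, hy'⟩ := h.ex.lift (i - s) x hx h0
        refine ⟨y, ?_, hy'⟩
        have e : i - ((s + 1 : ℕ) : ℤ) = i - s - 1 := by push_cast; ring
        change y ∈ N'.fil (i - ((s + 1 : ℕ) : ℤ))
        rw [e]
        exact hy
      surj := fun i z hz => h.ex.surj (i - s) z hz }

/-! ## Blocks -/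

/-- `X` is "exact" and sends shifts of free filtered modules to powers of columns. -/
structure Blk (ε : RR) (X : FUM → FM RR.fil) : Prop where
  ses : ∀ {N' N N'' : FUM} {f : N'.carrier →ₗ[ℂ] N.carrier} {g : N.carrier →ₗ[ℂ] N''.carrier},
    SES N' N N'' f g → ∃ (F : (X N').Win →ₗ[WAR] (X N).Win) (G : (X N).Win →ₗ[WAR] (X N'').Win),
      Function.Injective F ∧ Function.Exact F G ∧ Function.Surjective G
  free : ∀ {N : FUM} {J : Type} [Fintype J] {n : J → N.carrier}, IsFilFree N n → ∀ s : Fin 5,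
    Nonempty ((X (N.shift (vi s))).Win ≃ₗ[WAR] (J → (colFM RR.ringFil ε (vi s)).Win))

section Pi

variable {R : Type} [Ring R] {J : Type} [Fintype J] {Y S : Type} [AddCommGroup Y] [Module R Y]
  [AddCommGroup S] [Module R S]

lemma projective_pi_const [Module.Projective R Y] : Module.Projective R (J → Y) := by
  classical
  exact Module.Projective.of_equiv (DFinsupp.linearEquivFunOnFintype (R := R)
      (M := fun _ : J => Y))

lemma hom_pi_zero (h : ∀ f : Y →ₗ[R] S, f = 0) (f : (J → Y) →ₗ[R] S) : f = 0 := by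
  classical
  refine LinearMap.pi_ext fun j y => ?_
  have := h (f ∘ₗ LinearMap.single R (fun _ : J => Y) j)
  simpa using LinearMap.congr_fun this y

omit [Fintype J] in
lemma exists_hom_pi [Nonempty J] (h : ∃ f : Y →ₗ[R] S, f ≠ 0) : ∃ f : (J → Y) →ₗ[R] S, f ≠ 0 := by
  classical
  obtain ⟨f, hf⟩ := h
  obtain ⟨j⟩ := ‹Nonempty J›
  refine ⟨f ∘ₗ LinearMap.proj j, fun h0 => hf ?_⟩
  ext1 y
  have := LinearMap.congr_fun h0 (fun _ => y)
  simpa using this

end Pi

section Chain

variable {ε : RR} {X : FUM → FM RR.fil} (hX : Blk ε X)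

/-- vertices -/
def ofNat5 (s : ℕ) (h : s ≤ 4) : Fin 5 := ⟨s, by omega⟩

lemma vi_ofNat5 (s : ℕ) (h : s ≤ 4) : vi (ofNat5 s h) = (s : ℤ) := rfl

include hX

/-- the projective dimension of a constant module of the block is at most `4`. -/
theorem Blk.pdlt (hproj : ∀ s : Fin 5, Module.Projective WAR (colFM RR.ringFil ε (vi s)).Win)
    (hc : ChainStmt) (L : UM) [Module.Finite ℂ L.carrier] [Nontrivial L.carrier] :
    PDLT WAR (X L.triv).Win 5 := by
  have key := hc (fun j N => ∀ s : ℕ, s + j ≤ 4 → PDLT WAR (X (N.shift (s : ℤ))).Win (j + 1))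
    ?_ ?_ L
  · have h0 := key 0 (by omega)
    rwa [FUM.shift_zero'] at h0
  · intro N J _ _ n hn s hs
    obtain ⟨φ⟩ := hX.free hn (ofNat5 s hs)
    rw [vi_ofNat5] at φ
    have h1 := hproj (ofNat5 s hs)
    rw [vi_ofNat5] at h1
    have h2 : Module.Projective WAR (J → (colFM RR.ringFil ε (s : ℤ)).Win) :=
      projective_pi_const
    exact (PDLT.of_projective (R := WAR)).of_equiv φ.symm
  · intro j N' N N'' f g h h1 h2 s hs
    obtain ⟨F, G, hF, hFG, hG⟩ := hX.ses (h.shift' s)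
    exact PDLT.right hF hFG hG (h1 (s + 1) (by omega)) ((h2 s (by omega)).mono (by omega))

/-- vanishing of `Ext` for constant modules of the block. -/
theorem Blk.ev {S : Type} [AddCommGroup S] [Module WAR S]
    (hproj : ∀ s : Fin 5, Module.Projective WAR (colFM RR.ringFil ε (vi s)).Win)
    (hS : ∀ s : Fin 5, ∀ f : (colFM RR.ringFil ε (vi s)).Win →ₗ[WAR] S, f = 0)
    (hc : ChainStmt) (L : UM) [Module.Finite ℂ L.carrier] [Nontrivial L.carrier] :
    EV WAR (X L.triv).Win S := by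
  have key := hc (fun j N => ∀ s : ℕ, s + j ≤ 4 → EV WAR (X (N.shift (s : ℤ))).Win S)
    ?_ ?_ L
  · have h0 := key 0 (by omega)
    rwa [FUM.shift_zero'] at h0
  · intro N J _ _ n hn s hs
    obtain ⟨φ⟩ := hX.free hn (ofNat5 s hs)
    have h1 := hproj (ofNat5 s hs)
    have h3 := hS (ofNat5 s hs)
    rw [vi_ofNat5] at φ h1 h3
    have h2 : Module.Projective WAR (J → (colFM RR.ringFil ε (s : ℤ)).Win) :=
      projective_pi_const
    exact (EV.of_projective (hom_pi_zero h3)).of_equiv φ.symm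
  · intro j N' N N'' f g h h1 h2 s hs
    obtain ⟨F, G, hF, hFG, hG⟩ := hX.ses (h.shift' s)
    exact EV.right hF hFG hG (h1 (s + 1) (by omega)) (h2 s (by omega))

/-- nonvanishing of `Ext⁴` for constant modules of the block. -/
theorem Blk.enz {S : Type} [AddCommGroup S] [Module WAR S]
    (hproj : ∀ s : Fin 5, Module.Projective WAR (colFM RR.ringFil ε (vi s)).Win)
    (hS : ∀ s : Fin 5, s ≠ 4 → ∀ f : (colFM RR.ringFil ε (vi s)).Win →ₗ[WAR] S, f = 0)
    (hS4 : ∃ f : (colFM RR.ringFil ε (vi 4)).Win →ₗ[WAR] S, f ≠ 0)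
    (hc : ChainStmt) (L : UM) [Module.Finite ℂ L.carrier] [Nontrivial L.carrier] :
    ENZ WAR (X L.triv).Win S 4 := by
  have key := hc (fun j N => (∀ s : ℕ, s + j < 4 → EV WAR (X (N.shift (s : ℤ))).Win S) ∧
      ∀ s : ℕ, s + j = 4 → ENZ WAR (X (N.shift (s : ℤ))).Win S j)
    ?_ ?_ L
  · have h0 := key.2 0 (by omega)
    rwa [FUM.shift_zero'] at h0
  · intro N J _ _ n hn
    constructor
    · intro s hs
      obtain ⟨φ⟩ := hX.free hn (ofNat5 s (by omega))
      have h1 := hproj (ofNat5 s (by omega))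
      have h3 := hS (ofNat5 s (by omega)) (by
        intro h
        have := congrArg Fin.val h
        change s = 4 at this
        omega)
      rw [vi_ofNat5] at φ h1 h3
      have h2 : Module.Projective WAR (J → (colFM RR.ringFil ε (s : ℤ)).Win) :=
        projective_pi_const
      exact (EV.of_projective (hom_pi_zero h3)).of_equiv φ.symm
    · intro s hs
      obtain rfl : s = 4 := by omega
      obtain ⟨φ⟩ := hX.free hn 4
      obtain ⟨f, hf⟩ := exists_hom_pi (J := J) hS4
      exact (ENZ.zero f hf).of_equiv φ.symm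
  · intro j N' N N'' f g h h1 h2
    constructor
    · intro s hs
      obtain ⟨F, G, hF, hFG, hG⟩ := hX.ses (h.shift' s)
      exact EV.right hF hFG hG (h1.1 (s + 1) (by omega)) (h2.1 s (by omega))
    · intro s hs
      obtain ⟨F, G, hF, hFG, hG⟩ := hX.ses (h.shift' s)
      exact ENZ.shift hF hFG hG (h2.1 s (by omega)) (h1.2 (s + 1) (by omega))

end Chain

/-! ## Finiteness of windows -/


/-! ## The final statement -/

/-- all the inputs of the final assembly -/
structure Inputs (IM IA : FUM → FM RR.fil) (BM GM : UM → FM RR.fil) : Prop where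
  blkM : Blk RR.εm IM
  blkA : Blk RR.εa IA
  fin : ∀ (L : UM) [Module.Finite ℂ L.carrier], Module.Finite WAR (BM L).Win
  seqM : ∀ N : UM, ∃ (j : (GM N).Win →ₗ[WAR] (IM N.triv).Win)
    (q : (IM N.triv).Win →ₗ[WAR] (BM N).Win),
    Function.Injective j ∧ Function.Exact j q ∧ Function.Surjective q
  seqA : ∀ (N' N : UM) (i : N'.carrier →ₗ[ℂ] N.tw.carrier) (p : N.tw.carrier →ₗ[ℂ] N'.carrier),
    IsUHom i → IsUHom p → Function.Injective i → Function.Exact i N.θ →
    Function.Exact N.θ p → Function.Surjective p →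
    ∃ (i' : (BM N').Win →ₗ[WAR] (IA N.tw.triv).Win) (f : (IA N.tw.triv).Win →ₗ[WAR] (GM N).Win)
      (p' : (GM N).Win →ₗ[WAR] (BM N').Win),
      Function.Injective i' ∧ Function.Exact i' f ∧ Function.Exact f p' ∧ Function.Surjective p'
  isoA : ∀ N : UM, Function.Bijective N.θ → Nonempty ((IA N.tw.triv).Win ≃ₗ[WAR] (GM N).Win)

instance UM.tw_finite (N : UM) [Module.Finite ℂ N.carrier] : Module.Finite ℂ N.tw.carrier :=
  inferInstanceAs (Module.Finite ℂ (Fin 2 → N.carrier))

instance UM.tw_nontrivial (N : UM) [Nontrivial N.carrier] : Nontrivial N.tw.carrier :=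
  inferInstanceAs (Nontrivial (Fin 2 → N.carrier))

theorem assembly {IM IA : FUM → FM RR.fil} {BM GM : UM → FM RR.fil} (h : Inputs IM IA BM GM)
    (hc : ChainStmt) {V : ℕ → UM} (hV : VnStmt V) :
    ∃ (A : Type) (_ : Ring A) (_ : Algebra ℂ A), FiniteDimensional ℂ A ∧
      ∀ k : ℕ, ∃ N : ModuleCat.{0} A, Module.Finite A N ∧
        ¬ CategoryTheory.HasProjectiveDimensionLT N k ∧
        ∃ n : ℕ, CategoryTheory.HasProjectiveDimensionLT N n := by
  obtain ⟨hfin, hnt, hbij, hseq⟩ := hV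
  have hprojM : ∀ s : Fin 5, Module.Projective WAR (colFM RR.ringFil RR.εm (vi s)).Win :=
    fun s => projective_win_col RR.εm_mul_εm RR.εm_mem s
  have hprojA : ∀ s : Fin 5, Module.Projective WAR (colFM RR.ringFil RR.εa (vi s)).Win :=
    fun s => projective_win_col RR.εa_mul_εa RR.εa_mem s
  have hpdM : ∀ L : UM, ∀ [Module.Finite ℂ L.carrier], ∀ [Nontrivial L.carrier],
      PDLT WAR (IM L.triv).Win 5 := fun L => h.blkM.pdlt hprojM hc L
  have hpdA : ∀ L : UM, ∀ [Module.Finite ℂ L.carrier], ∀ [Nontrivial L.carrier],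
      PDLT WAR (IA L.triv).Win 5 := fun L => h.blkA.pdlt hprojA hc L
  refine ⟨WAR, inferInstance, inferInstance, WAR.finite, ?_⟩
  have hfinB : ∀ n, Module.Finite WAR (BM (V n)).Win := fun n =>
    @Inputs.fin _ _ _ _ h (V n) (hfin n)
  refine pd_conclusion2 (R := WAR) (fun n => (BM (V n)).Win) (c := 5) ?_ ?_
  · have := hfin 0
    have := hnt 0
    obtain ⟨j, q, hj, hjq, hq⟩ := h.seqM (V 0)
    obtain ⟨φ⟩ := h.isoA (V 0) hbij
    have hG : PDLT WAR (GM (V 0)).Win 5 := (hpdA (V 0).tw).of_equiv φ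
    have hGn : ENZ WAR (GM (V 0)).Win SR 4 :=
      (h.blkA.enz hprojA hom_aR exists_hom_aR hc (V 0).tw).of_equiv φ
    have hEV : EV WAR (IM (V 0).triv).Win SR := h.blkM.ev hprojM hom_mR hc (V 0)
    exact ⟨PDLT.right hj hjq hq hG ((hpdM (V 0)).mono (by omega)),
      (ENZ.shift hj hjq hq hEV hGn).not_pdlt⟩
  · intro n e he h1 h2
    have := hfin n
    have := hfin (n + 1)
    have := hnt (n + 1)
    obtain ⟨i, p, hi, hp, hi1, hi2, hp1, hp2⟩ := hseq n
    obtain ⟨i', f, p', a1, a2, a3, a4⟩ := h.seqA (V n) (V (n + 1)) i p hi hp hi1 hi2 hp1 hp2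
    obtain ⟨j, q, hj, hjq, hq⟩ := h.seqM (V (n + 1))
    exact pd_step2 a1 a2 a3 a4 hj hjq hq (hpdA (V (n + 1)).tw) (hpdM (V (n + 1))) he h1 h2

end Crest.Agent.R178B
end
namespace Crest.Agent.R178B.FM
end Crest.Agent.R178B.FM
end

-- ▼ part R178B/Chain
section

/-!
Row 178 (S0268), version B: the four one-variable steps
`L → L[D] → L[A] → L[E] → L[F]` and the theorem `chain : ChainStmt`.
-/

set_option autoImplicit false
set_option linter.all false

noncomputable section

namespace Crest.Agent.R178B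

namespace Chain

/-! ## operators on `ℕ →₀ L` -/

section ops

variable {L : Type} [AddCommGroup L] [Module ℂ L]

/-- `X ^ j l ↦ X ^ j (c j l)` -/
def dg (c : ℕ → Module.End ℂ L) : Module.End ℂ (ℕ →₀ L) :=
  Finsupp.lsum ℂ fun j => Finsupp.lsingle j ∘ₗ c j

@[simp] lemma dg_single (c : ℕ → Module.End ℂ L) (j : ℕ) (l : L) :
    dg c (Finsupp.single j l) = Finsupp.single j (c j l) := by
  simp [dg]

/-- `X ^ (j+1) l ↦ X ^ j (c j l)`, `X ^ 0 l ↦ 0` -/
def lw (c : ℕ → Module.End ℂ L) : Module.End ℂ (ℕ →₀ L) :=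
  Finsupp.lsum ℂ fun j => match j with
    | 0 => 0
    | j + 1 => Finsupp.lsingle j ∘ₗ c j

@[simp] lemma lw_single_zero (c : ℕ → Module.End ℂ L) (l : L) :
    lw c (Finsupp.single 0 l) = 0 := by
  simp [lw]

@[simp] lemma lw_single_succ (c : ℕ → Module.End ℂ L) (j : ℕ) (l : L) :
    lw c (Finsupp.single (j + 1) l) = Finsupp.single j (c j l) := by
  simp [lw]

/-- multiplication by the variable -/
def mX : Module.End ℂ (ℕ →₀ L) := mulX (k := ℂ)

@[simp] lemma mX_single (j : ℕ) (l : L) :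
    (mX : Module.End ℂ (ℕ →₀ L)) (Finsupp.single j l) = Finsupp.single (j + 1) l := by
  simp [mX]

variable {G : ℤ → Submodule ℂ L}

lemma polyFil_mono (hG : ∀ i, G i ≤ G (i + 1)) (i : ℤ) : polyFil G i ≤ polyFil G (i + 1) := by
  intro p hp n
  have := hG _ (hp n)
  rwa [show i - (n : ℤ) + 1 = i + 1 - n by ring] at this

lemma mX_mem (i : ℤ) (p : ℕ →₀ L) (hp : p ∈ polyFil G i) : mX p ∈ polyFil G (i + 1) := by
  refine map_polyFil_mem _ mX (fun j l hl => ?_) hp
  rw [mX_single]
  refine single_mem_polyFil ?_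
  push_cast
  rwa [show i + 1 - ((j : ℤ) + 1) = i - j by ring]

lemma dg_mem {c : ℕ → Module.End ℂ L} (hc : ∀ j i l, l ∈ G i → c j l ∈ G (i + 1)) (i : ℤ)
    (p : ℕ →₀ L) (hp : p ∈ polyFil G i) : dg c p ∈ polyFil G (i + 1) := by
  refine map_polyFil_mem _ (dg c) (fun j l hl => ?_) hp
  rw [dg_single]
  refine single_mem_polyFil ?_
  have := hc j _ _ hl
  rwa [show i - (j : ℤ) + 1 = i + 1 - j by ring] at this

lemma lw_mem {c : ℕ → Module.End ℂ L} (hc : ∀ j i l, l ∈ G i → c j l ∈ G (i + 1))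
    (hG : ∀ i, G i ≤ G (i + 1)) (i : ℤ)
    (p : ℕ →₀ L) (hp : p ∈ polyFil G i) : lw c p ∈ polyFil G (i + 1) := by
  refine map_polyFil_mem _ (lw c) (fun j l hl => ?_) hp
  cases j with
  | zero => rw [lw_single_zero]; exact Submodule.zero_mem _
  | succ j =>
    rw [lw_single_succ]
    refine single_mem_polyFil ?_
    have := hG _ (hc j _ _ hl)
    push_cast at this
    rwa [show i - ((j : ℤ) + 1) + 1 + 1 = i + 1 - j by ring] at this

/-- functoriality -/
def mp {L L' : Type} [AddCommGroup L] [Module ℂ L] [AddCommGroup L'] [Module ℂ L']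
    (f : L' →ₗ[ℂ] L) : (ℕ →₀ L') →ₗ[ℂ] (ℕ →₀ L) := Finsupp.mapRange.linearMap f

@[simp] lemma mp_single {L L' : Type} [AddCommGroup L] [Module ℂ L] [AddCommGroup L']
    [Module ℂ L'] (f : L' →ₗ[ℂ] L) (j : ℕ) (l : L') :
    mp f (Finsupp.single j l) = Finsupp.single j (f l) := by
  simp [mp]

@[simp] lemma mp_apply {L L' : Type} [AddCommGroup L] [Module ℂ L] [AddCommGroup L']
    [Module ℂ L'] (f : L' →ₗ[ℂ] L) (p : ℕ →₀ L') (n : ℕ) : mp f p n = f (p n) := rfl

lemma mp_mX {L L' : Type} [AddCommGroup L] [Module ℂ L] [AddCommGroup L']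
    [Module ℂ L'] (f : L' →ₗ[ℂ] L) (p : ℕ →₀ L') : mp f (mX p) = mX (mp f p) := by
  have : mp f ∘ₗ mX = mX ∘ₗ mp f := by
    ext j l : 2
    simp
  exact LinearMap.congr_fun this p

/-- `[X]` is exact. -/
lemma FExact.mp {L' L L'' : Type} [AddCommGroup L'] [Module ℂ L'] [AddCommGroup L] [Module ℂ L]
    [AddCommGroup L''] [Module ℂ L''] {F' : ℤ → Submodule ℂ L'} {F : ℤ → Submodule ℂ L}
    {F'' : ℤ → Submodule ℂ L''} {f : L' →ₗ[ℂ] L} {g : L →ₗ[ℂ] L''}
    (h : FExact F' F F'' f g) :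
    FExact (polyFil F') (polyFil F) (polyFil F'') (Chain.mp f) (Chain.mp g) where
  inj := by
    intro p q hpq
    ext n
    apply h.inj
    rw [← mp_apply, ← mp_apply, hpq]
  comp x := by
    ext n
    rw [mp_apply, mp_apply, h.comp]; rfl
  mapf i x hx n := by rw [mp_apply]; exact h.mapf _ _ (hx n)
  mapg i x hx n := by rw [mp_apply]; exact h.mapg _ _ (hx n)
  lift i x hx h0 := by
    classical
    have hn : ∀ n : ℕ, ∃ y, (y ∈ F' (i - n) ∧ f y = x n) ∧ (x n = 0 → y = 0) := by
      intro n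
      by_cases hxn : x n = 0
      · exact ⟨0, ⟨Submodule.zero_mem _, by rw [hxn, map_zero]⟩, fun _ => rfl⟩
      · obtain ⟨y, hy, hy'⟩ := h.lift _ _ (hx n) (by rw [← mp_apply, h0]; rfl)
        exact ⟨y, ⟨hy, hy'⟩, fun h => absurd h hxn⟩
    choose y hy hy0 using hn
    refine ⟨Finsupp.onFinset x.support y (fun n hn => ?_), fun n => ?_, ?_⟩
    · rw [Finsupp.mem_support_iff]
      exact fun h => hn (hy0 n h)
    · rw [Finsupp.onFinset_apply]; exact (hy n).1
    · ext n
      rw [mp_apply, Finsupp.onFinset_apply]; exact (hy n).2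
  surj i x hx := by
    classical
    have hn : ∀ n : ℕ, ∃ y, (y ∈ F (i - n) ∧ g y = x n) ∧ (x n = 0 → y = 0) := by
      intro n
      by_cases hxn : x n = 0
      · exact ⟨0, ⟨Submodule.zero_mem _, by rw [hxn, map_zero]⟩, fun _ => rfl⟩
      · obtain ⟨y, hy, hy'⟩ := h.surj _ _ (hx n)
        exact ⟨y, ⟨hy, hy'⟩, fun h => absurd h hxn⟩
    choose y hy hy0 using hn
    refine ⟨Finsupp.onFinset x.support y (fun n hn => ?_), fun n => ?_, ?_⟩
    · rw [Finsupp.mem_support_iff]
      exact fun h => hn (hy0 n h)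
    · rw [Finsupp.onFinset_apply]; exact (hy n).1
    · ext n
      rw [mp_apply, Finsupp.onFinset_apply]; exact (hy n).2

/-- The basic filtered exact sequence. -/
lemma fexact_delta {φ : L →ₗ[ℂ] L} (hφ : ∀ i, ∀ l ∈ G i, φ l ∈ G (i + 1)) :
    FExact (fun i => polyFil G (i - 1)) (polyFil G) G (delta φ) (evl φ) where
  inj := delta_injective φ
  comp := evl_delta φ
  mapf i x hx := delta_mem hφ hx
  mapg i x hx := evl_mem hφ hx
  lift i x hx h0 := exists_delta_eq hφ hx h0
  surj i z hz := exists_evl_eq φ hz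

lemma delta_mX (φ : L →ₗ[ℂ] L) (p : ℕ →₀ L) : delta φ (mX p) = mX (delta φ p) := by
  have : delta φ ∘ₗ mX = mX ∘ₗ delta φ := by
    ext j l : 2
    simp [delta_apply]
  exact LinearMap.congr_fun this p

lemma evl_mX (φ : L →ₗ[ℂ] L) (p : ℕ →₀ L) : evl φ (mX p) = φ (evl φ p) := by
  have : evl φ ∘ₗ mX = φ ∘ₗ evl φ := by
    ext j l : 2
    simp [pow_succ']
  exact LinearMap.congr_fun this p

/-- extension of a linear map: `X ^ j l ↦ T ^ j (g l)` -/
def ext {M : Type} [AddCommGroup M] [Module ℂ M] (T : Module.End ℂ M) (g : L →ₗ[ℂ] M) :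
    (ℕ →₀ L) →ₗ[ℂ] M := Finsupp.lsum ℂ fun j => (T ^ j) ∘ₗ g

@[simp] lemma ext_single {M : Type} [AddCommGroup M] [Module ℂ M] (T : Module.End ℂ M)
    (g : L →ₗ[ℂ] M) (j : ℕ) (l : L) : ext T g (Finsupp.single j l) = (T ^ j) (g l) := by
  simp [ext]

lemma ext_mX {M : Type} [AddCommGroup M] [Module ℂ M] (T : Module.End ℂ M)
    (g : L →ₗ[ℂ] M) (p : ℕ →₀ L) : ext T g (mX p) = T (ext T g p) := by
  have : ext T g ∘ₗ mX = T ∘ₗ ext T g := by
    ext j l : 2
    simp [pow_succ']
  exact LinearMap.congr_fun this p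

lemma ext_mem {M : Type} [AddCommGroup M] [Module ℂ M] {T : Module.End ℂ M}
    {g : L →ₗ[ℂ] M} {H : ℤ → Submodule ℂ M} (hT : ∀ i x, x ∈ H i → T x ∈ H (i + 1))
    (hg : ∀ i x, x ∈ G i → g x ∈ H i) (i : ℤ) (p : ℕ →₀ L) (hp : p ∈ polyFil G i) :
    ext T g p ∈ H i := by
  refine map_polyFil_mem _ (ext T g) (fun j l hl => ?_) hp
  rw [ext_single]
  have := pow_mem (fun i x hx => hT i x hx) j _ _ (hg _ _ hl)
  rwa [show i - (j : ℤ) + j = i by ring] at this

/-- induction on polynomials -/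
lemma poly_ind {p : (ℕ →₀ L) → Prop} (h0 : ∀ l, p (Finsupp.single 0 l))
    (hX : ∀ x, p x → p (mX x)) (hadd : ∀ x y, p x → p y → p (x + y)) (x : ℕ →₀ L) : p x := by
  have hs : ∀ j l, p (Finsupp.single j l) := by
    intro j
    induction j with
    | zero => exact h0
    | succ j ih =>
      intro l
      rw [← mX_single]
      exact hX _ (ih l)
  induction x using Finsupp.induction_linear with
  | zero => simpa using h0 0
  | add x y hx hy => exact hadd x y hx hy
  | single j l => exact hs j l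

end ops

/-! ## The lower levels -/

/-- filtered space with one operator -/
structure M1 : Type 1 where
  carrier : Type
  [acg : AddCommGroup carrier]
  [mod : Module ℂ carrier]
  d : Module.End ℂ carrier
  fil : ℤ → Submodule ℂ carrier
  mono : ∀ i, fil i ≤ fil (i + 1)
  fd : ∀ i x, x ∈ fil i → d x ∈ fil (i + 1)

attribute [instance] M1.acg M1.mod

/-- filtered space with two commuting operators -/
structure M2 : Type 1 where
  carrier : Type
  [acg : AddCommGroup carrier]
  [mod : Module ℂ carrier]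
  a : Module.End ℂ carrier
  d : Module.End ℂ carrier
  ad : a * d = d * a
  fil : ℤ → Submodule ℂ carrier
  mono : ∀ i, fil i ≤ fil (i + 1)
  fa : ∀ i x, x ∈ fil i → a x ∈ fil (i + 1)
  fd : ∀ i x, x ∈ fil i → d x ∈ fil (i + 1)

attribute [instance] M2.acg M2.mod

/-- filtered module over the Borel subalgebra -/
structure M3 : Type 1 where
  carrier : Type
  [acg : AddCommGroup carrier]
  [mod : Module ℂ carrier]
  a : Module.End ℂ carrier
  d : Module.End ℂ carrier
  e : Module.End ℂ carrier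
  rel : IsBorel a d e
  fil : ℤ → Submodule ℂ carrier
  mono : ∀ i, fil i ≤ fil (i + 1)
  fa : ∀ i x, x ∈ fil i → a x ∈ fil (i + 1)
  fd : ∀ i x, x ∈ fil i → d x ∈ fil (i + 1)
  fe : ∀ i x, x ∈ fil i → e x ∈ fil (i + 1)

attribute [instance] M3.acg M3.mod

/-- homs of level 1 -/
structure Hom1 {N N' : M1} (φ : N.carrier →ₗ[ℂ] N'.carrier) : Prop where
  d : ∀ x, φ (N.d x) = N'.d (φ x)

/-- homs of level 2 -/
structure Hom2 {N N' : M2} (φ : N.carrier →ₗ[ℂ] N'.carrier) : Prop where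
  a : ∀ x, φ (N.a x) = N'.a (φ x)
  d : ∀ x, φ (N.d x) = N'.d (φ x)

/-- homs of level 3 -/
structure Hom3 {N N' : M3} (φ : N.carrier →ₗ[ℂ] N'.carrier) : Prop where
  a : ∀ x, φ (N.a x) = N'.a (φ x)
  d : ∀ x, φ (N.d x) = N'.d (φ x)
  e : ∀ x, φ (N.e x) = N'.e (φ x)

/-! ### The functors -/

/-- `L ↦ L[D]` -/
@[reducible] def T1 (L : Type) [AddCommGroup L] [Module ℂ L] (G : ℤ → Submodule ℂ L)
    (hG : ∀ i, G i ≤ G (i + 1)) : M1 where
  carrier := ℕ →₀ L
  d := mX
  fil := polyFil G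
  mono := polyFil_mono hG
  fd := mX_mem

/-- `L ↦ L[A]` -/
@[reducible] def T2 (N : M1) : M2 where
  carrier := ℕ →₀ N.carrier
  a := mX
  d := dg fun _ => N.d
  ad := by
    ext j l : 2
    simp [Module.End.mul_apply]
  fil := polyFil N.fil
  mono := polyFil_mono N.mono
  fa := mX_mem
  fd := dg_mem fun _ => N.fd

lemma add_const_mem {L : Type} [AddCommGroup L] [Module ℂ L] {G : ℤ → Submodule ℂ L}
    (hG : ∀ i, G i ≤ G (i + 1)) {T : Module.End ℂ L} (hT : ∀ i x, x ∈ G i → T x ∈ G (i + 1))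
    (c : ℂ) (i : ℤ) (x : L) (hx : x ∈ G i) : (T + c • (1 : Module.End ℂ L)) x ∈ G (i + 1) := by
  rw [LinearMap.add_apply, LinearMap.smul_apply, Module.End.one_apply]
  exact (G _).add_mem (hT i x hx) ((G _).smul_mem _ (hG _ hx))

/-- `L ↦ L[E]` -/
@[reducible] def T3 (N : M2) : M3 where
  carrier := ℕ →₀ N.carrier
  a := dg fun j => N.a + (j : ℂ) • 1
  d := dg fun j => N.d + (-(j : ℂ)) • 1
  e := mX
  rel := by
    have ad : ∀ x, N.a (N.d x) = N.d (N.a x) := LinearMap.congr_fun N.ad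
    constructor
    · ext j l : 2
      simp only [LinearMap.comp_apply, Finsupp.lsingle_apply, Module.End.mul_apply, dg_single,
        LinearMap.add_apply, LinearMap.smul_apply, Module.End.one_apply, map_add, map_smul, ad]
      congr 1
      module
    · ext j l : 2
      simp only [LinearMap.comp_apply, Finsupp.lsingle_apply, Module.End.mul_apply, dg_single,
        LinearMap.add_apply, LinearMap.smul_apply, Module.End.one_apply, map_add, map_smul,
        mX_single]
      rw [← Finsupp.single_add]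
      congr 1
      push_cast
      module
    · ext j l : 2
      simp only [LinearMap.comp_apply, Finsupp.lsingle_apply, Module.End.mul_apply, dg_single,
        LinearMap.add_apply, LinearMap.sub_apply, LinearMap.smul_apply, Module.End.one_apply,
        map_add, map_smul, mX_single]
      rw [← Finsupp.single_sub]
      congr 1
      push_cast
      module
  fil := polyFil N.fil
  mono := polyFil_mono N.mono
  fa := dg_mem fun _ => add_const_mem N.mono N.fa _
  fd := dg_mem fun _ => add_const_mem N.mono N.fd _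
  fe := mX_mem

/-- the operators of `L[F]` -/
def opE (N : M3) : Module.End ℂ (ℕ →₀ N.carrier) :=
  (dg fun _ => N.e) + lw fun j => ((j : ℂ) + 1) • (N.a - N.d + (-(j : ℂ)) • 1)

lemma opE_single_zero (N : M3) (l : N.carrier) :
    opE N (Finsupp.single 0 l) = Finsupp.single 0 (N.e l) := by
  simp [opE]

lemma opE_single_succ (N : M3) (j : ℕ) (l : N.carrier) :
    opE N (Finsupp.single (j + 1) l) = Finsupp.single (j + 1) (N.e l) +
      Finsupp.single j (((j : ℂ) + 1) • (N.a l - N.d l + (-(j : ℂ)) • l)) := by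
  simp [opE]

/-- `L ↦ L[F]` -/
@[reducible] def T4 (N : M3) : FUM where
  carrier := ℕ →₀ N.carrier
  a := dg fun j => N.a + (-(j : ℂ)) • 1
  d := dg fun j => N.d + (j : ℂ) • 1
  e := opE N
  f := mX
  rel := by
    have ad : ∀ x, N.a (N.d x) = N.d (N.a x) := LinearMap.congr_fun N.rel.ad
    have ae : ∀ x, N.a (N.e x) = N.e (N.a x) + N.e x := LinearMap.congr_fun N.rel.ae
    have de : ∀ x, N.d (N.e x) = N.e (N.d x) - N.e x := LinearMap.congr_fun N.rel.de
    constructor
    · ext j l : 2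
      simp only [LinearMap.comp_apply, Finsupp.lsingle_apply, Module.End.mul_apply, dg_single,
        LinearMap.add_apply, LinearMap.smul_apply, Module.End.one_apply, map_add, map_smul, ad]
      congr 1
      module
    · ext j l : 2
      cases j with
      | zero =>
        simp only [LinearMap.comp_apply, Finsupp.lsingle_apply, Module.End.mul_apply, dg_single,
          LinearMap.add_apply, LinearMap.smul_apply, Module.End.one_apply, map_add, map_smul,
          opE_single_zero, ae]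
        rw [← Finsupp.single_add]
        congr 1
        push_cast
        module
      | succ j =>
        simp only [LinearMap.comp_apply, Finsupp.lsingle_apply, Module.End.mul_apply, dg_single,
          LinearMap.add_apply, LinearMap.smul_apply, Module.End.one_apply, map_add, map_smul,
          map_sub, opE_single_succ, ae, ad]
        rw [show ∀ a b c d : ℕ →₀ N.carrier, a + b + (c + d) = (a + c) + (b + d) from
          fun a b c d => by abel]
        rw [← Finsupp.single_add, ← Finsupp.single_add]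
        congr 2
        · push_cast
          module
        · push_cast
          module
    · ext j l : 2
      cases j with
      | zero =>
        simp only [LinearMap.comp_apply, Finsupp.lsingle_apply, Module.End.mul_apply, dg_single,
          LinearMap.add_apply, LinearMap.smul_apply, Module.End.one_apply, map_add, map_smul,
          LinearMap.sub_apply,
          opE_single_zero, de]
        rw [← Finsupp.single_sub]
        congr 1
        push_cast
        module
      | succ j =>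
        simp only [LinearMap.comp_apply, Finsupp.lsingle_apply, Module.End.mul_apply, dg_single,
          LinearMap.add_apply, LinearMap.smul_apply, Module.End.one_apply, map_add, map_smul,
          LinearMap.sub_apply,
          map_sub, opE_single_succ, de, ad]
        rw [show ∀ a b c d : ℕ →₀ N.carrier, a + b - (c + d) = (a - c) + (b - d) from
          fun a b c d => by abel]
        rw [← Finsupp.single_sub, ← Finsupp.single_sub]
        congr 2
        · push_cast
          module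
        · push_cast
          module
    · ext j l : 2
      simp only [LinearMap.comp_apply, Finsupp.lsingle_apply, Module.End.mul_apply, dg_single,
        LinearMap.add_apply, LinearMap.sub_apply, LinearMap.smul_apply, Module.End.one_apply,
        map_add, map_smul, mX_single]
      rw [← Finsupp.single_sub]
      congr 1
      push_cast
      module
    · ext j l : 2
      simp only [LinearMap.comp_apply, Finsupp.lsingle_apply, Module.End.mul_apply, dg_single,
        LinearMap.add_apply, LinearMap.sub_apply, LinearMap.smul_apply, Module.End.one_apply,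
        map_add, map_smul, mX_single]
      rw [← Finsupp.single_add]
      congr 1
      push_cast
      module
    · ext j l : 2
      cases j with
      | zero =>
        simp only [LinearMap.comp_apply, Finsupp.lsingle_apply, Module.End.mul_apply, dg_single,
          LinearMap.add_apply, LinearMap.sub_apply, LinearMap.smul_apply, Module.End.one_apply,
          map_add, map_smul, mX_single, opE_single_zero, opE_single_succ]
        rw [add_sub_assoc, ← Finsupp.single_sub]
        congr 2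
        push_cast
        module
      | succ j =>
        simp only [LinearMap.comp_apply, Finsupp.lsingle_apply, Module.End.mul_apply, dg_single,
          LinearMap.add_apply, LinearMap.sub_apply, LinearMap.smul_apply, Module.End.one_apply,
          map_add, map_smul, mX_single, opE_single_succ]
        rw [add_sub_assoc, ← Finsupp.single_sub,
          add_assoc (Finsupp.single (j + 1 + 1) (N.e l)), ← Finsupp.single_add]
        congr 2
        push_cast
        module
  fil := polyFil N.fil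
  mono := polyFil_mono N.mono
  fa := dg_mem fun _ => add_const_mem N.mono N.fa _
  fd := dg_mem fun _ => add_const_mem N.mono N.fd _
  fe := by
    intro i x hx
    rw [opE, LinearMap.add_apply]
    refine (polyFil N.fil _).add_mem (dg_mem (fun _ => N.fe) i x hx) (lw_mem ?_ N.mono i x hx)
    intro j i l hl
    rw [LinearMap.smul_apply]
    refine (N.fil _).smul_mem _ (add_const_mem N.mono ?_ _ i l hl)
    intro i x hx
    rw [LinearMap.sub_apply]
    exact (N.fil _).sub_mem (N.fa i x hx) (N.fd i x hx)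
  ff := mX_mem

/-! ### homs out of the polynomial modules -/

lemma hom2_of {N : M1} {M : M2} (φ : (T2 N).carrier →ₗ[ℂ] M.carrier)
    (hX : ∀ x, φ (mX x) = M.a (φ x))
    (hd : ∀ l, φ ((T2 N).d (Finsupp.single 0 l)) = M.d (φ (Finsupp.single 0 l))) : Hom2 φ where
  a := hX
  d := by
    have hN := LinearMap.congr_fun (T2 N).ad
    have hM := LinearMap.congr_fun M.ad
    refine poly_ind hd ?_ ?_
    · intro x hx
      have h1 : (T2 N).d (mX x) = mX ((T2 N).d x) := (hN x).symm
      rw [h1, hX, hX, hx]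
      exact hM _
    · intro x y hx hy
      rw [map_add, map_add, map_add, map_add, hx, hy]

lemma hom3_of {N : M2} {M : M3} (φ : (T3 N).carrier →ₗ[ℂ] M.carrier)
    (hX : ∀ x, φ (mX x) = M.e (φ x))
    (ha : ∀ l, φ ((T3 N).a (Finsupp.single 0 l)) = M.a (φ (Finsupp.single 0 l)))
    (hd : ∀ l, φ ((T3 N).d (Finsupp.single 0 l)) = M.d (φ (Finsupp.single 0 l))) : Hom3 φ where
  e := hX
  a := by
    have hN : ∀ x, (T3 N).a (mX x) = mX ((T3 N).a x) + mX x :=
      LinearMap.congr_fun (T3 N).rel.ae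
    have hM : ∀ x, M.a (M.e x) = M.e (M.a x) + M.e x := LinearMap.congr_fun M.rel.ae
    refine poly_ind ha ?_ ?_
    · intro x hx
      rw [hN, map_add, hX, hX, hM, hx]
    · intro x y hx hy
      rw [map_add, map_add, map_add, map_add, hx, hy]
  d := by
    have hN : ∀ x, (T3 N).d (mX x) = mX ((T3 N).d x) - mX x :=
      LinearMap.congr_fun (T3 N).rel.de
    have hM : ∀ x, M.d (M.e x) = M.e (M.d x) - M.e x := LinearMap.congr_fun M.rel.de
    refine poly_ind hd ?_ ?_
    · intro x hx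
      rw [hN, map_sub, hX, hX, hM, hx]
    · intro x y hx hy
      rw [map_add, map_add, map_add, map_add, hx, hy]

lemma hom4_of {N : M3} {M : UM} (φ : (T4 N).carrier →ₗ[ℂ] M.carrier)
    (hX : ∀ x, φ (mX x) = M.f (φ x))
    (ha : ∀ l, φ ((T4 N).a (Finsupp.single 0 l)) = M.a (φ (Finsupp.single 0 l)))
    (hd : ∀ l, φ ((T4 N).d (Finsupp.single 0 l)) = M.d (φ (Finsupp.single 0 l)))
    (he : ∀ l, φ ((T4 N).e (Finsupp.single 0 l)) = M.e (φ (Finsupp.single 0 l))) :
    IsUHom (N := (T4 N).toUM) φ := by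
  have h1 : ∀ x, φ ((T4 N).a x) = M.a (φ x) := by
    have hN : ∀ x, (T4 N).a (mX x) = mX ((T4 N).a x) - mX x :=
      LinearMap.congr_fun (T4 N).rel.af
    have hM : ∀ x, M.a (M.f x) = M.f (M.a x) - M.f x := LinearMap.congr_fun M.rel.af
    refine poly_ind ha ?_ ?_
    · intro x hx
      rw [hN, map_sub, hX, hX, hM, hx]
    · intro x y hx hy
      rw [map_add, map_add, map_add, map_add, hx, hy]
  have h2 : ∀ x, φ ((T4 N).d x) = M.d (φ x) := by
    have hN : ∀ x, (T4 N).d (mX x) = mX ((T4 N).d x) + mX x :=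
      LinearMap.congr_fun (T4 N).rel.df
    have hM : ∀ x, M.d (M.f x) = M.f (M.d x) + M.f x := LinearMap.congr_fun M.rel.df
    refine poly_ind hd ?_ ?_
    · intro x hx
      rw [hN, map_add, hX, hX, hM, hx]
    · intro x y hx hy
      rw [map_add, map_add, map_add, map_add, hx, hy]
  have h3 : ∀ x, φ ((T4 N).e x) = M.e (φ x) := by
    have hN : ∀ x, (T4 N).e (mX x) = mX ((T4 N).e x) + (T4 N).a x - (T4 N).d x :=
      LinearMap.congr_fun (T4 N).rel.ef
    have hM : ∀ x, M.e (M.f x) = M.f (M.e x) + M.a x - M.d x := LinearMap.congr_fun M.rel.ef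
    refine poly_ind he ?_ ?_
    · intro x hx
      rw [hN, map_sub, map_add, hX, hX, hM, hx, h1, h2]
    · intro x y hx hy
      rw [map_add, map_add, map_add, map_add, hx, hy]
  exact ⟨h1, h2, h3, hX⟩

/-! ### values at constants -/

lemma T2_d_zero (N : M1) (l : N.carrier) :
    (T2 N).d (Finsupp.single 0 l) = Finsupp.single 0 (N.d l) := by
  simp [T2]

lemma T3_a_zero (N : M2) (l : N.carrier) :
    (T3 N).a (Finsupp.single 0 l) = Finsupp.single 0 (N.a l) := by
  simp [T3]

lemma T3_d_zero (N : M2) (l : N.carrier) :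
    (T3 N).d (Finsupp.single 0 l) = Finsupp.single 0 (N.d l) := by
  simp [T3]

lemma T4_a_zero (N : M3) (l : N.carrier) :
    (T4 N).a (Finsupp.single 0 l) = Finsupp.single 0 (N.a l) := by
  simp [T4]

lemma T4_d_zero (N : M3) (l : N.carrier) :
    (T4 N).d (Finsupp.single 0 l) = Finsupp.single 0 (N.d l) := by
  simp [T4]

lemma T4_e_zero (N : M3) (l : N.carrier) :
    (T4 N).e (Finsupp.single 0 l) = Finsupp.single 0 (N.e l) :=
  opE_single_zero N l

/-! ### functoriality -/

lemma mp_hom2 {N N' : M1} {φ : N.carrier →ₗ[ℂ] N'.carrier} (h : Hom1 φ) :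
    Hom2 (N := T2 N) (N' := T2 N') (mp φ) := by
  refine hom2_of _ (fun x => mp_mX _ _) fun l => ?_
  rw [T2_d_zero, mp_single, mp_single, T2_d_zero, h.d]

lemma mp_hom3 {N N' : M2} {φ : N.carrier →ₗ[ℂ] N'.carrier} (h : Hom2 φ) :
    Hom3 (N := T3 N) (N' := T3 N') (mp φ) := by
  refine hom3_of _ (fun x => mp_mX _ _) (fun l => ?_) (fun l => ?_)
  · rw [T3_a_zero, mp_single, mp_single, T3_a_zero, h.a]
  · rw [T3_d_zero, mp_single, mp_single, T3_d_zero, h.d]

lemma mp_hom4 {N N' : M3} {φ : N.carrier →ₗ[ℂ] N'.carrier} (h : Hom3 φ) :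
    IsUHom (N := (T4 N).toUM) (N' := (T4 N').toUM) (mp φ) := by
  refine hom4_of _ (fun x => mp_mX _ _) (fun l => ?_) (fun l => ?_) (fun l => ?_)
  · rw [T4_a_zero, mp_single, mp_single, T4_a_zero, h.a]
  · rw [T4_d_zero, mp_single, mp_single, T4_d_zero, h.d]
  · rw [T4_e_zero, mp_single, mp_single, T4_e_zero, h.e]

/-! ### the one-variable sequences -/

/-- restriction from level 4 to level 3, twisted by `c` -/
@[reducible] def res4 (N : FUM) (c : ℂ) : M3 where
  carrier := N.carrier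
  a := N.a + (-c) • 1
  d := N.d + c • 1
  e := N.e
  rel := by
    constructor
    · simp only [add_mul, mul_add, N.rel.ad, smul_mul_assoc, mul_smul_comm, one_mul, mul_one]
      module
    · simp only [add_mul, mul_add, N.rel.ae, smul_mul_assoc, mul_smul_comm, one_mul, mul_one]
      module
    · simp only [add_mul, mul_add, N.rel.de, smul_mul_assoc, mul_smul_comm, one_mul, mul_one]
      module
  fil := N.fil
  mono := N.mono
  fa := add_const_mem N.mono N.fa _
  fd := add_const_mem N.mono N.fd _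
  fe := N.fe

/-- restriction from level 3 to level 2, twisted by `c` -/
@[reducible] def res3 (N : M3) (c : ℂ) : M2 where
  carrier := N.carrier
  a := N.a + c • 1
  d := N.d + (-c) • 1
  ad := by
    simp only [add_mul, mul_add, N.rel.ad, smul_mul_assoc, mul_smul_comm, one_mul, mul_one]
    module
  fil := N.fil
  mono := N.mono
  fa := add_const_mem N.mono N.fa _
  fd := add_const_mem N.mono N.fd _

/-- restriction from level 2 to level 1 -/
@[reducible] def res2 (N : M2) : M1 where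
  carrier := N.carrier
  d := N.d
  fil := N.fil
  mono := N.mono
  fd := N.fd

lemma evl_zero {L : Type} [AddCommGroup L] [Module ℂ L] (φ : L →ₗ[ℂ] L) (l : L) :
    evl φ (Finsupp.single 0 l) = l := by simp

lemma delta_zero {L : Type} [AddCommGroup L] [Module ℂ L] (φ : L →ₗ[ℂ] L) (l : L) :
    delta φ (Finsupp.single 0 l) = Finsupp.single 1 l - Finsupp.single 0 (φ l) := by
  simp [delta_apply]

lemma delta_hom4 (N : FUM) :
    IsUHom (N := (T4 (res4 N 1)).toUM) (N' := (T4 (res4 N 0)).toUM) (delta N.f) := by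
  have af : ∀ x, N.a (N.f x) = N.f (N.a x) - N.f x := LinearMap.congr_fun N.rel.af
  have df : ∀ x, N.d (N.f x) = N.f (N.d x) + N.f x := LinearMap.congr_fun N.rel.df
  have ef : ∀ x, N.e (N.f x) = N.f (N.e x) + N.a x - N.d x := LinearMap.congr_fun N.rel.ef
  refine hom4_of _ (fun x => delta_mX _ _) (fun l => ?_) (fun l => ?_) (fun l => ?_)
  · rw [T4_a_zero, delta_zero, delta_zero]
    change _ = dg (fun j => (N.a + (-(0:ℂ)) • 1) + (-(j : ℂ)) • 1) _
    simp [res4, af, sub_eq_add_neg]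
  · rw [T4_d_zero, delta_zero, delta_zero]
    change _ = dg (fun j => (N.d + ((0:ℂ)) • 1) + ((j : ℂ)) • 1) _
    simp [res4, df]
  · rw [T4_e_zero, delta_zero, delta_zero]
    change _ = opE (res4 N 0) _
    rw [map_sub, opE_single_zero, opE_single_succ]
    simp [res4, ef]
    abel

lemma evl_hom4 (N : FUM) :
    IsUHom (N := (T4 (res4 N 0)).toUM) (N' := N.toUM) (evl N.f) := by
  refine hom4_of _ (fun x => evl_mX _ _) (fun l => ?_) (fun l => ?_) (fun l => ?_)
  · rw [T4_a_zero, evl_zero, evl_zero]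
    simp [res4]
  · rw [T4_d_zero, evl_zero, evl_zero]
    simp [res4]
  · rw [T4_e_zero, evl_zero, evl_zero]

lemma delta_hom3 (N : M3) :
    Hom3 (N := T3 (res3 N 1)) (N' := T3 (res3 N 0)) (delta N.e) := by
  have ae : ∀ x, N.a (N.e x) = N.e (N.a x) + N.e x := LinearMap.congr_fun N.rel.ae
  have de : ∀ x, N.d (N.e x) = N.e (N.d x) - N.e x := LinearMap.congr_fun N.rel.de
  refine hom3_of _ (fun x => delta_mX _ _) (fun l => ?_) (fun l => ?_)
  · rw [T3_a_zero, delta_zero, delta_zero]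
    change _ = dg (fun j => (N.a + ((0:ℂ)) • 1) + ((j : ℂ)) • 1) _
    simp [res3, ae]
  · rw [T3_d_zero, delta_zero, delta_zero]
    change _ = dg (fun j => (N.d + (-(0:ℂ)) • 1) + (-(j : ℂ)) • 1) _
    simp [res3, de, sub_eq_add_neg]

lemma evl_hom3 (N : M3) :
    Hom3 (N := T3 (res3 N 0)) (N' := N) (evl N.e) := by
  refine hom3_of _ (fun x => evl_mX _ _) (fun l => ?_) (fun l => ?_)
  · rw [T3_a_zero, evl_zero, evl_zero]
    simp [res3]
  · rw [T3_d_zero, evl_zero, evl_zero]
    simp [res3]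

lemma delta_hom2 (N : M2) :
    Hom2 (N := T2 (res2 N)) (N' := T2 (res2 N)) (delta N.a) := by
  have ad : ∀ x, N.a (N.d x) = N.d (N.a x) := LinearMap.congr_fun N.ad
  refine hom2_of _ (fun x => delta_mX _ _) (fun l => ?_)
  rw [T2_d_zero, delta_zero, delta_zero]
  change _ = dg (fun j => N.d) _
  simp [res2, ad]

lemma evl_hom2 (N : M2) :
    Hom2 (N := T2 (res2 N)) (N' := N) (evl N.a) := by
  refine hom2_of _ (fun x => evl_mX _ _) (fun l => ?_)
  rw [T2_d_zero, evl_zero, evl_zero]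

lemma delta_hom1 (N : M1) :
    Hom1 (N := T1 N.carrier N.fil N.mono) (N' := T1 N.carrier N.fil N.mono) (delta N.d) :=
  ⟨fun x => delta_mX _ _⟩

lemma evl_hom1 (N : M1) :
    Hom1 (N := T1 N.carrier N.fil N.mono) (N' := N) (evl N.d) :=
  ⟨fun x => evl_mX _ _⟩

/-! ### shifts -/

/-- shift of filtered spaces of level 3 -/
@[reducible] def M3.shift (N : M3) (s : ℤ) : M3 where
  carrier := N.carrier
  a := N.a
  d := N.d
  e := N.e
  rel := N.rel
  fil i := N.fil (i - s)
  mono i := by have := N.mono (i - s); rwa [show i - s + 1 = i + 1 - s by ring] at this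
  fa i x hx := by have := N.fa (i - s) x hx; rwa [show i - s + 1 = i + 1 - s by ring] at this
  fd i x hx := by have := N.fd (i - s) x hx; rwa [show i - s + 1 = i + 1 - s by ring] at this
  fe i x hx := by have := N.fe (i - s) x hx; rwa [show i - s + 1 = i + 1 - s by ring] at this

lemma polyFil_shift {L : Type} [AddCommGroup L] [Module ℂ L] (G : ℤ → Submodule ℂ L) :
    (fun i => polyFil G (i - 1)) = polyFil (fun i => G (i - 1)) := by
  funext i
  ext p
  simp only [mem_polyFil]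
  refine forall_congr' fun n => ?_
  rw [show i - 1 - (n : ℤ) = i - n - 1 by ring]

/-- exactness with a shift by one -/
def SX {L' L L'' : Type} [AddCommGroup L'] [Module ℂ L'] [AddCommGroup L] [Module ℂ L]
    [AddCommGroup L''] [Module ℂ L''] (F' : ℤ → Submodule ℂ L') (F : ℤ → Submodule ℂ L)
    (F'' : ℤ → Submodule ℂ L'') (f : L' →ₗ[ℂ] L) (g : L →ₗ[ℂ] L'') : Prop :=
  FExact (fun i => F' (i - 1)) F F'' f g

lemma SX.mp {L' L L'' : Type} [AddCommGroup L'] [Module ℂ L'] [AddCommGroup L] [Module ℂ L]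
    [AddCommGroup L''] [Module ℂ L''] {F' : ℤ → Submodule ℂ L'} {F : ℤ → Submodule ℂ L}
    {F'' : ℤ → Submodule ℂ L''} {f : L' →ₗ[ℂ] L} {g : L →ₗ[ℂ] L''}
    (h : SX F' F F'' f g) :
    SX (polyFil F') (polyFil F) (polyFil F'') (Chain.mp f) (Chain.mp g) := by
  unfold SX at *
  rw [polyFil_shift]
  exact FExact.mp h

lemma sx_delta {L : Type} [AddCommGroup L] [Module ℂ L] {G : ℤ → Submodule ℂ L} {φ : L →ₗ[ℂ] L}
    (hφ : ∀ i, ∀ l ∈ G i, φ l ∈ G (i + 1)) :
    SX (polyFil G) (polyFil G) G (delta φ) (evl φ) :=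
  fexact_delta hφ

/-! ### free modules -/

/-- the free filtered module on `(L, G)`. -/
@[reducible] def Fr (L : Type) [AddCommGroup L] [Module ℂ L] (G : ℤ → Submodule ℂ L)
    (hG : ∀ i, G i ≤ G (i + 1)) : FUM := T4 (T3 (T2 (T1 L G hG)))

section chain

variable {P : ℕ → FUM → Prop}
  (h0 : ∀ (L : Type) [AddCommGroup L] [Module ℂ L] [Module.Finite ℂ L] [Nontrivial L],
    P 0 (Fr L (trivFil L) trivFil_mono))
  (hs : ∀ (j : ℕ) (N' N N'' : FUM) (f : N'.carrier →ₗ[ℂ] N.carrier)
      (g : N.carrier →ₗ[ℂ] N''.carrier), SES (N'.shift 1) N N'' f g →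
      P j N' → P j N → P (j + 1) N'')

include h0 hs

lemma chain1 (L : Type) [AddCommGroup L] [Module ℂ L] [Module.Finite ℂ L] [Nontrivial L]
    (d : Module.End ℂ L) :
    P 1 (T4 (T3 (T2 ⟨L, d, trivFil L, trivFil_mono, fun i x hx => trivFil_map _ i x hx⟩))) := by
  refine hs 0 (Fr L (trivFil L) trivFil_mono) (Fr L (trivFil L) trivFil_mono) _
    (mp (mp (mp (delta d)))) (mp (mp (mp (evl d)))) ⟨?_, ?_, ?_⟩ (h0 L) (h0 L)
  · exact mp_hom4 (mp_hom3 (mp_hom2
      (delta_hom1 ⟨L, d, trivFil L, trivFil_mono, fun i x hx => trivFil_map _ i x hx⟩)))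
  · exact mp_hom4 (mp_hom3 (mp_hom2
      (evl_hom1 ⟨L, d, trivFil L, trivFil_mono, fun i x hx => trivFil_map _ i x hx⟩)))
  · exact SX.mp (SX.mp (SX.mp (sx_delta fun i l hl => trivFil_map _ i l hl)))

lemma chain2 (L : Type) [AddCommGroup L] [Module ℂ L] [Module.Finite ℂ L] [Nontrivial L]
    (a d : Module.End ℂ L) (ad : a * d = d * a) :
    P 2 (T4 (T3 ⟨L, a, d, ad, trivFil L, trivFil_mono, fun i x hx => trivFil_map _ i x hx,
      fun i x hx => trivFil_map _ i x hx⟩)) := by
  refine hs 1 _ _ _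
    (mp (mp (delta a))) (mp (mp (evl a))) ⟨?_, ?_, ?_⟩ (chain1 h0 hs L d) (chain1 h0 hs L d)
  · exact mp_hom4 (mp_hom3
      (delta_hom2 ⟨L, a, d, ad, trivFil L, trivFil_mono, fun i x hx => trivFil_map _ i x hx,
      fun i x hx => trivFil_map _ i x hx⟩))
  · exact mp_hom4 (mp_hom3
      (evl_hom2 ⟨L, a, d, ad, trivFil L, trivFil_mono, fun i x hx => trivFil_map _ i x hx,
      fun i x hx => trivFil_map _ i x hx⟩))
  · exact SX.mp (SX.mp (sx_delta fun i l hl => trivFil_map _ i l hl))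

lemma chain3 (L : Type) [AddCommGroup L] [Module ℂ L] [Module.Finite ℂ L] [Nontrivial L]
    (a d e : Module.End ℂ L) (rel : IsBorel a d e) :
    P 3 (T4 ⟨L, a, d, e, rel, trivFil L, trivFil_mono, fun i x hx => trivFil_map _ i x hx,
      fun i x hx => trivFil_map _ i x hx, fun i x hx => trivFil_map _ i x hx⟩) := by
  let N : M3 := ⟨L, a, d, e, rel, trivFil L, trivFil_mono, fun i x hx => trivFil_map _ i x hx,
      fun i x hx => trivFil_map _ i x hx, fun i x hx => trivFil_map _ i x hx⟩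
  exact hs 2 (T4 (T3 (res3 N 1))) (T4 (T3 (res3 N 0))) (T4 N)
    (mp (delta e)) (mp (evl e)) ⟨mp_hom4 (delta_hom3 N), mp_hom4 (evl_hom3 N),
      SX.mp (sx_delta fun i l hl => trivFil_map _ i l hl)⟩
      (chain2 h0 hs L _ _ (res3 N 1).ad) (chain2 h0 hs L _ _ (res3 N 0).ad)

lemma chain4 (L : UM) [Module.Finite ℂ L.carrier] [Nontrivial L.carrier] :
    P 4 L.triv := by
  exact hs 3 (T4 (res4 L.triv 1)) (T4 (res4 L.triv 0)) L.triv
    (delta L.f) (evl L.f) ⟨delta_hom4 L.triv, evl_hom4 L.triv,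
      sx_delta fun i l hl => trivFil_map _ i l hl⟩
      (@chain3 P h0 hs L.carrier L.acg L.mod ‹_› ‹_› _ _ _ (res4 L.triv 1).rel)
      (@chain3 P h0 hs L.carrier L.acg L.mod ‹_› ‹_› _ _ _ (res4 L.triv 0).rel)

end chain

/-! ### the regular module -/

lemma IsGL2.map {A B : Type} [Ring A] [Ring B] {a d e f : A} (h : IsGL2 a d e f) (φ : A →+* B) :
    IsGL2 (φ a) (φ d) (φ e) (φ f) where
  ad := by rw [← map_mul, h.ad, map_mul]
  ae := by rw [← map_mul, h.ae, map_add, map_mul]
  de := by rw [← map_mul, h.de, map_sub, map_mul]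
  af := by rw [← map_mul, h.af, map_sub, map_mul]
  df := by rw [← map_mul, h.df, map_add, map_mul]
  ef := by rw [← map_mul, h.ef, map_sub, map_add, map_mul]

lemma one_mem_gens : (1 : U) ∈ U.gens := Submodule.subset_span (Or.inl rfl)

lemma g_mem_gens (x : Gen) : U.g x ∈ U.gens := Submodule.subset_span (Or.inr ⟨x, rfl⟩)

lemma fil_of_nonneg {i : ℤ} (h : 0 ≤ i) : U.fil i = U.gens ^ i.toNat := by
  unfold U.fil; rw [if_pos h]

lemma fil_of_neg {i : ℤ} (h : i < 0) : U.fil i = ⊥ := by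
  unfold U.fil; rw [if_neg (by omega)]

lemma fil_mul_gens {u v : U} {i : ℤ} (hu : u ∈ U.gens) (hv : v ∈ U.fil i) :
    u * v ∈ U.fil (i + 1) := by
  by_cases h : 0 ≤ i
  · rw [fil_of_nonneg h] at hv
    rw [fil_of_nonneg (by omega), show (i + 1).toNat = i.toNat + 1 by omega, pow_succ']
    exact Submodule.mul_mem_mul hu hv
  · rw [fil_of_neg (by omega)] at hv
    rw [(Submodule.mem_bot ℂ).1 hv, mul_zero]
    exact Submodule.zero_mem _

lemma fil_mono (i : ℤ) : U.fil i ≤ U.fil (i + 1) := by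
  intro v hv
  have := fil_mul_gens one_mem_gens hv
  rwa [one_mul] at this

lemma one_mem_fil {i : ℤ} (h : 0 ≤ i) : (1 : U) ∈ U.fil i := by
  rw [fil_of_nonneg h]
  have h1 : ∀ n : ℕ, (1 : U) ∈ U.gens ^ n := by
    intro n
    induction n with
    | zero => rw [pow_zero]; exact Submodule.one_le.1 le_rfl
    | succ n ih =>
      rw [pow_succ, ← mul_one (1 : U)]
      exact Submodule.mul_mem_mul ih one_mem_gens
  exact h1 _

/-- `J → U` as a filtered `U`-module. -/
@[reducible] def reg (J : Type) : FUM where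
  carrier := J → U
  a := Algebra.lsmul ℂ ℂ (J → U) (U.g .a)
  d := Algebra.lsmul ℂ ℂ (J → U) (U.g .d)
  e := Algebra.lsmul ℂ ℂ (J → U) (U.g .e)
  f := Algebra.lsmul ℂ ℂ (J → U) (U.g .f)
  rel := IsGL2.map U.isGL2 (Algebra.lsmul ℂ ℂ (J → U)).toRingHom
  fil i := Submodule.pi Set.univ fun _ => U.fil i
  mono i x hx j hj := fil_mono i (hx j hj)
  fa i x hx j hj := fil_mul_gens (g_mem_gens _) (hx j hj)
  fd i x hx j hj := fil_mul_gens (g_mem_gens _) (hx j hj)
  fe i x hx j hj := fil_mul_gens (g_mem_gens _) (hx j hj)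
  ff i x hx j hj := fil_mul_gens (g_mem_gens _) (hx j hj)

lemma reg_ρ {J : Type} (u : U) (x : (reg J).carrier) (j : J) :
    ((reg J).toUM.ρ u x : J → U) j = u * x j := by
  have h : (reg J).toUM.ρ = Algebra.lsmul ℂ ℂ (J → U) := by
    apply U.hom_ext
    intro g
    unfold UM.ρ
    cases g <;> simp
  rw [h]
  rfl

/-! ### universal properties -/

lemma ext_hom2 {N : M1} {M : M2} (φ : N.carrier →ₗ[ℂ] M.carrier)
    (hd : ∀ x, φ (N.d x) = M.d (φ x)) : Hom2 (N := T2 N) (N' := M) (ext M.a φ) := by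
  refine hom2_of _ (fun x => ext_mX _ _ _) fun l => ?_
  rw [T2_d_zero, ext_single, ext_single, pow_zero, Module.End.one_apply, Module.End.one_apply, hd]

lemma ext_hom3 {N : M2} {M : M3} (φ : N.carrier →ₗ[ℂ] M.carrier)
    (ha : ∀ x, φ (N.a x) = M.a (φ x))
    (hd : ∀ x, φ (N.d x) = M.d (φ x)) : Hom3 (N := T3 N) (N' := M) (ext M.e φ) := by
  refine hom3_of _ (fun x => ext_mX _ _ _) (fun l => ?_) (fun l => ?_)
  · rw [T3_a_zero, ext_single, ext_single, pow_zero, Module.End.one_apply, Module.End.one_apply,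
      ha]
  · rw [T3_d_zero, ext_single, ext_single, pow_zero, Module.End.one_apply, Module.End.one_apply,
      hd]

lemma ext_hom4 {N : M3} {M : UM} (φ : N.carrier →ₗ[ℂ] M.carrier)
    (ha : ∀ x, φ (N.a x) = M.a (φ x))
    (hd : ∀ x, φ (N.d x) = M.d (φ x))
    (he : ∀ x, φ (N.e x) = M.e (φ x)) : IsUHom (N := (T4 N).toUM) (N' := M) (ext M.f φ) := by
  refine hom4_of _ (fun x => ext_mX _ _ _) (fun l => ?_) (fun l => ?_) (fun l => ?_)
  · rw [T4_a_zero, ext_single, ext_single, pow_zero, Module.End.one_apply, Module.End.one_apply,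
      ha]
  · rw [T4_d_zero, ext_single, ext_single, pow_zero, Module.End.one_apply, Module.End.one_apply,
      hd]
  · rw [T4_e_zero, ext_single, ext_single, pow_zero, Module.End.one_apply, Module.End.one_apply,
      he]

section free

variable {L : Type} [AddCommGroup L] [Module ℂ L]

/-- the extension of a linear map to the free module -/
def psi (M : FUM) (g : L →ₗ[ℂ] M.carrier) :
    (Fr L (trivFil L) trivFil_mono).carrier →ₗ[ℂ] M.carrier :=
  ext M.f (ext M.e (ext M.a (ext M.d g)))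

/-- level 3 part of a FUM -/
@[reducible] def und3 (M : FUM) : M3 :=
  ⟨M.carrier, M.a, M.d, M.e, ⟨M.rel.ad, M.rel.ae, M.rel.de⟩, M.fil, M.mono, M.fa, M.fd, M.fe⟩

/-- level 2 part of a FUM -/
@[reducible] def und2 (M : FUM) : M2 :=
  ⟨M.carrier, M.a, M.d, M.rel.ad, M.fil, M.mono, M.fa, M.fd⟩

lemma psi_hom (M : FUM) (g : L →ₗ[ℂ] M.carrier) :
    IsUHom (N := (Fr L (trivFil L) trivFil_mono).toUM) (N' := M.toUM) (psi M g) := by
  have h2 : Hom2 (N := T2 (T1 L (trivFil L) trivFil_mono)) (N' := und2 M)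
      (ext M.a (ext M.d g)) := ext_hom2 (M := und2 M) _ fun x => ext_mX _ _ _
  have h3 : Hom3 (N := T3 (T2 (T1 L (trivFil L) trivFil_mono))) (N' := und3 M)
      (ext M.e (ext M.a (ext M.d g))) := ext_hom3 (M := und3 M) _ h2.a h2.d
  exact ext_hom4 _ h3.a h3.d h3.e

lemma psi_mem (M : FUM) (g : L →ₗ[ℂ] M.carrier) (hg : ∀ i x, x ∈ trivFil L i → g x ∈ M.fil i)
    (i : ℤ) (x : (Fr L (trivFil L) trivFil_mono).carrier)
    (hx : x ∈ (Fr L (trivFil L) trivFil_mono).fil i) : psi M g x ∈ M.fil i := by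
  refine ext_mem M.ff (fun i x hx => ext_mem M.fe (fun i x hx => ext_mem M.fa
    (fun i x hx => ext_mem M.fd hg i x hx) i x hx) i x hx) i x hx

/-- constants -/
def cst : L →ₗ[ℂ] (Fr L (trivFil L) trivFil_mono).carrier :=
  Finsupp.lsingle 0 ∘ₗ Finsupp.lsingle 0 ∘ₗ Finsupp.lsingle 0 ∘ₗ Finsupp.lsingle 0

lemma cst_apply (l : L) : (cst l : (Fr L (trivFil L) trivFil_mono).carrier) =
    Finsupp.single 0 (Finsupp.single 0 (Finsupp.single 0 (Finsupp.single 0 l))) := rfl

lemma psi_cst (M : FUM) (g : L →ₗ[ℂ] M.carrier) (l : L) : psi M g (cst l) = g l := by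
  rw [cst_apply, psi]
  simp

lemma cst_mem (l : L) : (cst l) ∈ (Fr L (trivFil L) trivFil_mono).fil 0 := by
  have h : l ∈ trivFil L 0 := by
    unfold trivFil; rw [if_pos le_rfl]; trivial
  refine single_mem_polyFil (single_mem_polyFil (single_mem_polyFil (single_mem_polyFil ?_)))
  simpa using h

lemma free_ind {p : (Fr L (trivFil L) trivFil_mono).carrier → Prop}
    (h0 : ∀ l, p (cst l)) (hadd : ∀ x y, p x → p y → p (x + y))
    (ha : ∀ x, p x → p ((Fr L (trivFil L) trivFil_mono).a x))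
    (hd : ∀ x, p x → p ((Fr L (trivFil L) trivFil_mono).d x))
    (he : ∀ x, p x → p ((Fr L (trivFil L) trivFil_mono).e x))
    (hf : ∀ x, p x → p ((Fr L (trivFil L) trivFil_mono).f x)) (x) : p x := by
  refine poly_ind (fun l => ?_) hf hadd x
  refine poly_ind (p := fun l => p (Finsupp.single 0 l)) (fun l => ?_) ?_ ?_ l
  rotate_left
  · intro x hx
    have := he _ hx
    rwa [T4_e_zero] at this
  · intro x y hx hy
    rw [Finsupp.single_add]
    exact hadd _ _ hx hy
  refine poly_ind (p := fun l => p (Finsupp.single 0 (Finsupp.single 0 l))) (fun l => ?_) ?_ ?_ l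
  rotate_left
  · intro x hx
    have := ha _ hx
    rwa [T4_a_zero, T3_a_zero] at this
  · intro x y hx hy
    rw [Finsupp.single_add, Finsupp.single_add]
    exact hadd _ _ hx hy
  refine poly_ind (p := fun l => p (Finsupp.single 0 (Finsupp.single 0 (Finsupp.single 0 l))))
    (fun l => h0 l) ?_ ?_ l
  · intro x hx
    have := hd _ hx
    rwa [T4_d_zero, T3_d_zero, T2_d_zero] at this
  · intro x y hx hy
    rw [Finsupp.single_add, Finsupp.single_add, Finsupp.single_add]
    exact hadd _ _ hx hy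

end free

/-- criterion for freeness -/
lemma isFilFree_of {L : Type} [AddCommGroup L] [Module ℂ L] (N : FUM) {J : Type} [Fintype J]
    [DecidableEq J] (b : Module.Basis J ℂ L) (c : L →ₗ[ℂ] N.carrier)
    (hc : ∀ l, c l ∈ N.fil 0)
    (hind : ∀ p : N.carrier → Prop, (∀ l, p (c l)) → (∀ x y, p x → p y → p (x + y)) →
      (∀ x, p x → p (N.a x)) → (∀ x, p x → p (N.d x)) → (∀ x, p x → p (N.e x)) →
      (∀ x, p x → p (N.f x)) → ∀ x, p x)
    (hψ : ∀ (g : L →ₗ[ℂ] (reg J).carrier), (∀ i x, x ∈ trivFil L i → g x ∈ (reg J).fil i) →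
      ∃ ψ : N.carrier →ₗ[ℂ] (reg J).carrier, IsUHom (N := N.toUM) (N' := (reg J).toUM) ψ ∧
        (∀ l, ψ (c l) = g l) ∧ ∀ i x, x ∈ N.fil i → ψ x ∈ (reg J).fil i) :
    IsFilFree N (fun j => c (b j)) := by
  let g : L →ₗ[ℂ] (reg J).carrier :=
    { toFun := fun l j => algebraMap ℂ U (b.repr l j)
      map_add' := fun x y => by ext j; simp
      map_smul' := fun c x => by ext j; simp [Algebra.smul_def] }
  have hg : ∀ i x, x ∈ trivFil L i → g x ∈ (reg J).fil i := by
    intro i x hx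
    by_cases h : 0 ≤ i
    · intro j _
      change algebraMap ℂ U (b.repr x j) ∈ U.fil i
      rw [Algebra.algebraMap_eq_smul_one]
      exact Submodule.smul_mem _ _ (one_mem_fil h)
    · unfold trivFil at hx
      rw [if_neg h] at hx
      rw [(Submodule.mem_bot ℂ).1 hx, map_zero]
      exact Submodule.zero_mem _
  have hgb : ∀ j, g (b j) = Pi.single j 1 := by
    intro j
    ext k
    change algebraMap ℂ U (b.repr (b j) k) = _
    rw [Module.Basis.repr_self, Finsupp.single_apply, Pi.single_apply]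
    by_cases h : j = k
    · rw [if_pos h, if_pos h.symm, map_one]
    · rw [if_neg h, if_neg (Ne.symm h), map_zero]
  obtain ⟨ψ, hψ, hψc, hψm⟩ := hψ g hg
  constructor
  · intro j; exact hc (b j)
  · intro u hu j
    have h1 : ψ (∑ j, u j • c (b j)) = u := by
      rw [map_sum]
      have h2 : ∀ j, ψ (u j • c (b j)) = Pi.single j (u j) := by
        intro j
        rw [hψ.smul, hψc, hgb]
        change (reg J).toUM.ρ (u j) (Pi.single j 1 : J → U) = _
        ext k
        rw [reg_ρ]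
        rw [Pi.single_apply, Pi.single_apply]
        split_ifs <;> simp
      rw [Finset.sum_congr rfl fun j _ => h2 j]
      exact Finset.univ_sum_single u
    have h3 : u = 0 := by
      rw [← h1, hu, map_zero]
    rw [h3]; rfl
  · intro i x hx
    refine ⟨ψ x, fun j => hψm i x hx j trivial, ?_⟩
    clear hx
    refine hind (fun x => ∑ j, (ψ x : J → U) j • c (b j) = x)
      ?_ ?_ ?_ ?_ ?_ ?_ x
    · intro l
      rw [hψc]
      change ∑ j, (algebraMap ℂ U (b.repr l j)) • c (b j) = c l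
      conv_rhs => rw [← b.sum_repr l, map_sum]
      refine Finset.sum_congr rfl fun j _ => ?_
      rw [algebraMap_smul, map_smul]
    · intro x y hx hy
      rw [map_add]
      conv_rhs => rw [← hx, ← hy, ← Finset.sum_add_distrib]
      refine Finset.sum_congr rfl fun j _ => ?_
      rw [← add_smul]; rfl
    · intro x hx
      rw [hψ.a]
      conv_rhs => rw [← hx, ← UM.a_smul, Finset.smul_sum]
      refine Finset.sum_congr rfl fun j _ => ?_
      rw [← mul_smul]; rfl
    · intro x hx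
      rw [hψ.d]
      conv_rhs => rw [← hx, ← UM.d_smul, Finset.smul_sum]
      refine Finset.sum_congr rfl fun j _ => ?_
      rw [← mul_smul]; rfl
    · intro x hx
      rw [hψ.e]
      conv_rhs => rw [← hx, ← UM.e_smul, Finset.smul_sum]
      refine Finset.sum_congr rfl fun j _ => ?_
      rw [← mul_smul]; rfl
    · intro x hx
      rw [hψ.f]
      conv_rhs => rw [← hx, ← UM.f_smul, Finset.smul_sum]
      refine Finset.sum_congr rfl fun j _ => ?_
      rw [← mul_smul]; rfl

lemma isFilFree (L : Type) [AddCommGroup L] [Module ℂ L] {J : Type} [Fintype J] [DecidableEq J]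
    (b : Module.Basis J ℂ L) :
    IsFilFree (Fr L (trivFil L) trivFil_mono) (fun j => cst (b j)) :=
  isFilFree_of _ b cst cst_mem (fun p h0 hadd ha hd he hf => free_ind h0 hadd ha hd he hf)
    fun g hg => ⟨psi (reg J) g, psi_hom (reg J) g, psi_cst (reg J) g, psi_mem (reg J) g hg⟩

end Chain

/-- **B3** -/
theorem chain : ChainStmt := by
  intro P h0 hs L _ _
  refine Chain.chain4 (P := P) ?_ hs L
  intro L _ _ _ _
  have hpos : 0 < Module.finrank ℂ L := Module.finrank_pos
  haveI : Nonempty (Fin (Module.finrank ℂ L)) := ⟨⟨0, hpos⟩⟩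
  exact h0 _ (Fin (Module.finrank ℂ L)) _ (Chain.isFilFree L (Module.finBasis ℂ L))

end Crest.Agent.R178B
end
end

-- ▼ part R178B/Vn

/-!
Row 178 (S0268), version B, module B1: the `U`-modules `V n = Sym^n ℂ²` and the exact sequences
`0 → V n → (V (n+1)).tw --θ--> (V (n+1)).tw → V n → 0`.
`V n` = sequences `c : ℕ → ℂ` supported in `[0, n]` (`c` stands for `∑ c i m_i`).
-/

set_option autoImplicit false
set_option linter.all false

noncomputable section

namespace Crest.Agent.R178B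

/-- sequences supported in `[0, n]` -/
def Wn (n : ℕ) : Submodule ℂ (ℕ → ℂ) where
  carrier := {c | ∀ i, n < i → c i = 0}
  add_mem' := fun {x y} hx hy i hi => by simp [hx i hi, hy i hi]
  zero_mem' := fun i hi => rfl
  smul_mem' := fun c x hx i hi => by simp [hx i hi]


def opA : (ℕ → ℂ) →ₗ[ℂ] (ℕ → ℂ) where
  toFun c i := (i : ℂ) * c i
  map_add' x y := by ext i; simp [mul_add]
  map_smul' r x := by ext i; simp; ring

def opD (n : ℕ) : (ℕ → ℂ) →ₗ[ℂ] (ℕ → ℂ) where
  toFun c i := ((n : ℂ) - i) * c i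
  map_add' x y := by ext i; simp [mul_add]
  map_smul' r x := by ext i; simp; ring

/-- shift up -/
def up (g : ℕ → ℂ) : ℕ → ℂ
  | 0 => 0
  | (i + 1) => g i

@[simp] lemma up_zero (g : ℕ → ℂ) : up g 0 = 0 := rfl
@[simp] lemma up_succ (g : ℕ → ℂ) (i : ℕ) : up g (i + 1) = g i := rfl

def opE (n : ℕ) : (ℕ → ℂ) →ₗ[ℂ] (ℕ → ℂ) where
  toFun c := up fun i => ((n : ℂ) - i) * c i
  map_add' x y := by ext i; cases i <;> simp [mul_add]
  map_smul' r x := by ext i; cases i <;> simp <;> ring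

def opF : (ℕ → ℂ) →ₗ[ℂ] (ℕ → ℂ) where
  toFun c i := ((i : ℂ) + 1) * c (i + 1)
  map_add' x y := by ext i; simp [mul_add]
  map_smul' r x := by ext i; simp; ring

def opUp : (ℕ → ℂ) →ₗ[ℂ] (ℕ → ℂ) where
  toFun c := up c
  map_add' x y := by ext i; cases i <;> simp
  map_smul' r x := by ext i; cases i <;> simp

@[simp] lemma opA_apply (c : ℕ → ℂ) (i : ℕ) : opA c i = (i : ℂ) * c i := rfl
@[simp] lemma opD_apply (n : ℕ) (c : ℕ → ℂ) (i : ℕ) : opD n c i = ((n : ℂ) - i) * c i := rfl
@[simp] lemma opE_zero (n : ℕ) (c : ℕ → ℂ) : opE n c 0 = 0 := rfl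
@[simp] lemma opE_succ (n : ℕ) (c : ℕ → ℂ) (i : ℕ) : opE n c (i + 1) = ((n : ℂ) - i) * c i := rfl
@[simp] lemma opF_apply (c : ℕ → ℂ) (i : ℕ) : opF c i = ((i : ℂ) + 1) * c (i + 1) := rfl
@[simp] lemma opUp_zero (c : ℕ → ℂ) : opUp c 0 = 0 := rfl
@[simp] lemma opUp_succ (c : ℕ → ℂ) (i : ℕ) : opUp c (i + 1) = c i := rfl

lemma opA_mem {n : ℕ} : ∀ c ∈ Wn n, opA c ∈ Wn n := fun c hc i hi => by simp [hc i hi]
lemma opD_mem {n : ℕ} (m : ℕ) : ∀ c ∈ Wn n, opD m c ∈ Wn n := fun c hc i hi => by simp [hc i hi]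
lemma opE_mem {n : ℕ} : ∀ c ∈ Wn n, opE n c ∈ Wn n := fun c hc i hi => by
  cases i with
  | zero => simp
  | succ i =>
    rw [opE_succ]
    rcases Nat.lt_succ_iff_lt_or_eq.1 hi with h | h
    · rw [hc i h, mul_zero]
    · rw [h, sub_self, zero_mul]
lemma opF_mem {n : ℕ} : ∀ c ∈ Wn n, opF c ∈ Wn n := fun c hc i hi => by
  rw [opF_apply, hc (i + 1) (by omega), mul_zero]

/-- `V n = Sym^n ℂ²`. -/
def V (n : ℕ) : UM where
  carrier := Wn n
  a := opA.restrict opA_mem
  d := (opD n).restrict (opD_mem n)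
  e := (opE n).restrict opE_mem
  f := opF.restrict opF_mem
  rel := by
    constructor
    · refine LinearMap.ext fun c => Subtype.ext (funext fun i => ?_)
      simp; ring
    · refine LinearMap.ext fun c => Subtype.ext (funext fun i => ?_)
      cases i <;> simp <;> ring
    · refine LinearMap.ext fun c => Subtype.ext (funext fun i => ?_)
      cases i <;> simp <;> ring
    · refine LinearMap.ext fun c => Subtype.ext (funext fun i => ?_)
      simp; ring
    · refine LinearMap.ext fun c => Subtype.ext (funext fun i => ?_)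
      simp; ring
    · refine LinearMap.ext fun c => Subtype.ext (funext fun i => ?_)
      cases i <;> simp <;> ring

/-- underlying sequence -/
def vl {n : ℕ} (c : (V n).carrier) : ℕ → ℂ := (c : Wn n).1
/-- constructor -/
def mkV {n : ℕ} (g : ℕ → ℂ) (h : g ∈ Wn n) : (V n).carrier := (⟨g, h⟩ : Wn n)
/-- first slot -/
def s0 {n : ℕ} (v : (V n).tw.carrier) : (V n).carrier := (v : Fin 2 → Wn n) 0
/-- second slot -/
def s1 {n : ℕ} (v : (V n).tw.carrier) : (V n).carrier := (v : Fin 2 → Wn n) 1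
/-- constructor -/
def mkT {n : ℕ} (x y : (V n).carrier) : (V n).tw.carrier := (![x, y] : Fin 2 → Wn n)

section basic

variable {n : ℕ}

lemma vl_out (c : (V n).carrier) {i : ℕ} (hi : n < i) : vl c i = 0 := (c : Wn n).2 i hi
lemma vl_mem (c : (V n).carrier) : vl c ∈ Wn n := (c : Wn n).2
lemma vl_mkV (g : ℕ → ℂ) (h : g ∈ Wn n) : vl (mkV g h) = g := rfl
lemma s0_mkT (x y : (V n).carrier) : s0 (mkT x y) = x := rfl
lemma s1_mkT (x y : (V n).carrier) : s1 (mkT x y) = y := rfl
lemma vl_zero (i : ℕ) : vl (0 : (V n).carrier) i = 0 := rfl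
lemma s0_zero : s0 (0 : (V n).tw.carrier) = 0 := rfl
lemma s1_zero : s1 (0 : (V n).tw.carrier) = 0 := rfl

lemma V_a_val (c : (V n).carrier) (i : ℕ) : vl ((V n).a c) i = (i : ℂ) * vl c i := rfl
lemma V_d_val (c : (V n).carrier) (i : ℕ) : vl ((V n).d c) i = ((n : ℂ) - i) * vl c i := rfl
lemma V_e_zero (c : (V n).carrier) : vl ((V n).e c) 0 = 0 := rfl
lemma V_e_succ (c : (V n).carrier) (i : ℕ) :
    vl ((V n).e c) (i + 1) = ((n : ℂ) - i) * vl c i := rfl
lemma V_f_val (c : (V n).carrier) (i : ℕ) :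
    vl ((V n).f c) i = ((i : ℂ) + 1) * vl c (i + 1) := rfl

lemma V_ext {x y : (V n).carrier} (h : ∀ i, vl x i = vl y i) : x = y :=
  Subtype.ext (funext h)

lemma tw_ext {v w : (V n).tw.carrier}
    (h0 : ∀ i, vl (s0 v) i = vl (s0 w) i)
    (h1 : ∀ i, vl (s1 v) i = vl (s1 w) i) : v = w := by
  funext j
  fin_cases j
  · exact V_ext h0
  · exact V_ext h1

end basic

lemma Wn_succ {n : ℕ} {c : ℕ → ℂ} (hc : c ∈ Wn n) : c ∈ Wn (n + 1) := fun i hi =>
  hc i (by omega)

lemma up_mem {n : ℕ} {c : ℕ → ℂ} (hc : c ∈ Wn n) : - opUp c ∈ Wn (n + 1) := fun i hi => by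
  cases i with
  | zero => simp
  | succ i => rw [Pi.neg_apply, opUp_succ, hc i (by omega), neg_zero]

/-- `m_i ↦ (m_i, - m_{i+1})` -/
def inj' (n : ℕ) : (V n).carrier →ₗ[ℂ] (V (n + 1)).tw.carrier where
  toFun c := mkT (mkV (vl c) (Wn_succ (vl_mem c))) (mkV (- opUp (vl c)) (up_mem (vl_mem c)))
  map_add' x y := by
    refine tw_ext (fun i => rfl) fun j => ?_
    change -(opUp (vl x + vl y) j) = -(opUp (vl x) j) + -(opUp (vl y) j)
    rw [map_add, Pi.add_apply]; ring
  map_smul' r x := by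
    refine tw_ext (fun i => rfl) fun j => ?_
    change -(opUp (r • vl x) j) = r * -(opUp (vl x) j)
    rw [map_smul, Pi.smul_apply, smul_eq_mul]; ring

lemma prj_mem {n : ℕ} (v : (V (n + 1)).tw.carrier) :
    (fun i : ℕ => ((n : ℂ) + 1 - i) * vl (s0 v) i - ((i : ℂ) + 1) * vl (s1 v) (i + 1)) ∈ Wn n := by
  intro i hi
  change ((n : ℂ) + 1 - i) * vl (s0 v) i - ((i : ℂ) + 1) * vl (s1 v) (i + 1) = 0
  rw [vl_out (s1 v) (i := i + 1) (by omega), mul_zero, sub_zero]
  rcases Nat.lt_or_ge (n + 1) i with h | h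
  · rw [vl_out (s0 v) h, mul_zero]
  · rw [show i = n + 1 by omega]
    push_cast
    rw [sub_self, zero_mul]

/-- slot 1: `m_i ↦ (n + 1 - i) m_i`, slot 2: `m_i ↦ - i m_{i-1}` -/
def prj' (n : ℕ) : (V (n + 1)).tw.carrier →ₗ[ℂ] (V n).carrier where
  toFun v := mkV _ (prj_mem v)
  map_add' x y := by
    refine V_ext fun j => ?_
    change ((n : ℂ) + 1 - j) * (vl (s0 x) j + vl (s0 y) j) -
      ((j : ℂ) + 1) * (vl (s1 x) (j + 1) + vl (s1 y) (j + 1)) =
      (((n : ℂ) + 1 - j) * vl (s0 x) j - ((j : ℂ) + 1) * vl (s1 x) (j + 1)) +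
      (((n : ℂ) + 1 - j) * vl (s0 y) j - ((j : ℂ) + 1) * vl (s1 y) (j + 1))
    ring
  map_smul' r x := by
    refine V_ext fun j => ?_
    change ((n : ℂ) + 1 - j) * (r * vl (s0 x) j) - ((j : ℂ) + 1) * (r * vl (s1 x) (j + 1)) =
      r * (((n : ℂ) + 1 - j) * vl (s0 x) j - ((j : ℂ) + 1) * vl (s1 x) (j + 1))
    ring

lemma inj'_zero (n : ℕ) (c : (V n).carrier) (i : ℕ) : vl (s0 (inj' n c)) i = vl c i := rfl
lemma inj'_one_zero (n : ℕ) (c : (V n).carrier) : vl (s1 (inj' n c)) 0 = 0 := by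
  change -(opUp (vl c) 0) = 0
  simp
lemma inj'_one_succ (n : ℕ) (c : (V n).carrier) (i : ℕ) :
    vl (s1 (inj' n c)) (i + 1) = - vl c i := rfl
lemma prj'_val (n : ℕ) (v : (V (n + 1)).tw.carrier) (i : ℕ) :
    vl (prj' n v) i = ((n : ℂ) + 1 - i) * vl (s0 v) i - ((i : ℂ) + 1) * vl (s1 v) (i + 1) := rfl

section tw

variable {n : ℕ} (v : (V n).tw.carrier)

lemma tw_a_zero (i : ℕ) : vl (s0 ((V n).tw.a v)) i = (i : ℂ) * vl (s0 v) i := by
  change (i : ℂ) * vl (s0 v) i + 0 = _
  ring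
lemma tw_a_one (i : ℕ) : vl (s1 ((V n).tw.a v)) i = ((i : ℂ) - 1) * vl (s1 v) i := by
  change 0 + ((i : ℂ) * vl (s1 v) i - vl (s1 v) i) = _
  ring
lemma tw_d_zero (i : ℕ) :
    vl (s0 ((V n).tw.d v)) i = ((n : ℂ) - i - 1) * vl (s0 v) i := by
  change (((n : ℂ) - i) * vl (s0 v) i - vl (s0 v) i) + 0 = _
  ring
lemma tw_d_one (i : ℕ) :
    vl (s1 ((V n).tw.d v)) i = ((n : ℂ) - i) * vl (s1 v) i := by
  change 0 + ((n : ℂ) - i) * vl (s1 v) i = _
  ring
lemma tw_e_zero_zero : vl (s0 ((V n).tw.e v)) 0 = vl (s1 v) 0 := by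
  change 0 + vl (s1 v) 0 = _
  ring
lemma tw_e_zero_succ (i : ℕ) : vl (s0 ((V n).tw.e v)) (i + 1) =
    ((n : ℂ) - i) * vl (s0 v) i + vl (s1 v) (i + 1) := rfl
lemma tw_e_one_zero : vl (s1 ((V n).tw.e v)) 0 = 0 := by
  change (0 : ℂ) + 0 = _
  ring
lemma tw_e_one_succ (i : ℕ) : vl (s1 ((V n).tw.e v)) (i + 1) =
    ((n : ℂ) - i) * vl (s1 v) i := by
  change (0 : ℂ) + ((n : ℂ) - i) * vl (s1 v) i = _
  ring
lemma tw_f_zero (i : ℕ) : vl (s0 ((V n).tw.f v)) i =
    ((i : ℂ) + 1) * vl (s0 v) (i + 1) := by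
  change ((i : ℂ) + 1) * vl (s0 v) (i + 1) + 0 = _
  ring
lemma tw_f_one (i : ℕ) : vl (s1 ((V n).tw.f v)) i =
    vl (s0 v) i + ((i : ℂ) + 1) * vl (s1 v) (i + 1) := rfl
lemma θ_zero (i : ℕ) : vl (s0 ((V n).θ v)) i =
    ((i : ℂ) + 1) * (vl (s0 v) i + vl (s1 v) (i + 1)) := by
  change ((i : ℂ) * vl (s0 v) i + vl (s0 v) i) + ((i : ℂ) + 1) * vl (s1 v) (i + 1) = _
  ring
lemma θ_one_zero : vl (s1 ((V n).θ v)) 0 = ((n : ℂ) + 1) * vl (s1 v) 0 := by
  change (0 : ℂ) + (((n : ℂ) - (0 : ℕ)) * vl (s1 v) 0 + vl (s1 v) 0) = _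
  push_cast
  ring
lemma θ_one_succ (i : ℕ) : vl (s1 ((V n).θ v)) (i + 1) =
    ((n : ℂ) - i) * (vl (s0 v) i + vl (s1 v) (i + 1)) := by
  change ((n : ℂ) - i) * vl (s0 v) i +
    (((n : ℂ) - (i + 1 : ℕ)) * vl (s1 v) (i + 1) + vl (s1 v) (i + 1)) = _
  push_cast
  ring

end tw

lemma inj'_hom (n : ℕ) : IsUHom (inj' n) where
  a c := by
    refine tw_ext (fun i => ?_) (fun i => ?_)
    · rw [tw_a_zero, inj'_zero, inj'_zero, V_a_val]
    · cases i with
      | zero => rw [tw_a_one, inj'_one_zero, inj'_one_zero, mul_zero]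
      | succ i => rw [tw_a_one, inj'_one_succ, inj'_one_succ, V_a_val]; push_cast; ring
  d c := by
    refine tw_ext (fun i => ?_) (fun i => ?_)
    · rw [tw_d_zero, inj'_zero, inj'_zero, V_d_val]; push_cast; ring
    · cases i with
      | zero => rw [tw_d_one, inj'_one_zero, inj'_one_zero, mul_zero]
      | succ i => rw [tw_d_one, inj'_one_succ, inj'_one_succ, V_d_val]; push_cast; ring
  e c := by
    refine tw_ext (fun i => ?_) (fun i => ?_)
    · cases i with
      | zero => rw [tw_e_zero_zero, inj'_zero, inj'_one_zero, V_e_zero]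
      | succ i =>
        rw [tw_e_zero_succ, inj'_zero, inj'_zero, inj'_one_succ, V_e_succ]; push_cast; ring
    · cases i with
      | zero => rw [tw_e_one_zero, inj'_one_zero]
      | succ i =>
        rw [tw_e_one_succ, inj'_one_succ]
        cases i with
        | zero => rw [inj'_one_zero, V_e_zero]; ring
        | succ i => rw [inj'_one_succ, V_e_succ]; push_cast; ring
  f c := by
    refine tw_ext (fun i => ?_) (fun i => ?_)
    · rw [tw_f_zero, inj'_zero, inj'_zero, V_f_val]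
    · cases i with
      | zero => rw [tw_f_one, inj'_one_zero, inj'_zero, inj'_one_succ]; push_cast; ring
      | succ i =>
        rw [tw_f_one, inj'_one_succ, inj'_zero, inj'_one_succ, V_f_val]; push_cast; ring

lemma prj'_hom (n : ℕ) : IsUHom (prj' n) where
  a v := by
    refine V_ext fun i => ?_
    rw [prj'_val, V_a_val, prj'_val, tw_a_zero, tw_a_one]; push_cast; ring
  d v := by
    refine V_ext fun i => ?_
    rw [prj'_val, V_d_val, prj'_val, tw_d_zero, tw_d_one]; push_cast; ring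
  e v := by
    refine V_ext fun i => ?_
    cases i with
    | zero =>
      rw [prj'_val, V_e_zero, tw_e_zero_zero, tw_e_one_succ]; push_cast; ring
    | succ i =>
      rw [prj'_val, V_e_succ, prj'_val, tw_e_zero_succ, tw_e_one_succ]; push_cast; ring
  f v := by
    refine V_ext fun i => ?_
    rw [prj'_val, V_f_val, prj'_val, tw_f_zero, tw_f_one]; push_cast; ring

lemma V_finite (n : ℕ) : Module.Finite ℂ (V n).carrier := by
  let g : Wn n →ₗ[ℂ] (Fin (n + 1) → ℂ) :=
    { toFun := fun c i => c.1 i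
      map_add' := fun x y => rfl
      map_smul' := fun r x => rfl }
  refine Module.Finite.of_injective g fun x y h => Subtype.ext (funext fun i => ?_)
  by_cases hi : i < n + 1
  · exact congrFun h ⟨i, hi⟩
  · rw [x.2 i (by omega), y.2 i (by omega)]

lemma V_nontrivial (n : ℕ) : Nontrivial (V n).carrier := by
  have hm : (fun i => if i = 0 then (1 : ℂ) else 0) ∈ Wn n := fun i hi => if_neg (by omega)
  refine ⟨⟨mkV _ hm, 0, ?_⟩⟩
  intro h
  have : (1 : ℂ) = 0 := congrFun (congrArg vl h) 0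
  exact one_ne_zero this

lemma θ_V0 (v : (V 0).tw.carrier) : (V 0).θ v = v := by
  refine tw_ext (fun i => ?_) (fun i => ?_)
  · rw [θ_zero, vl_out (s1 v) (i := i + 1) (by omega)]
    cases i with
    | zero => push_cast; ring
    | succ i => rw [vl_out (s0 v) (i := i + 1) (by omega)]; ring
  · cases i with
    | zero => rw [θ_one_zero]; push_cast; ring
    | succ i =>
      rw [θ_one_succ, vl_out (s1 v) (i := i + 1) (by omega)]
      cases i with
      | zero => push_cast; ring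
      | succ i => rw [vl_out (s0 v) (i := i + 1) (by omega)]; ring

lemma inj'_injective (n : ℕ) : Function.Injective (inj' n) := by
  intro x y h
  refine V_ext fun i => ?_
  rw [← inj'_zero n x, ← inj'_zero n y, h]

lemma exact_inj_θ (n : ℕ) : Function.Exact (inj' n) (V (n + 1)).θ := by
  intro v
  constructor
  · intro h
    have h0 : ∀ i : ℕ, vl (s0 v) i + vl (s1 v) (i + 1) = 0 := by
      intro i
      have h1 := θ_zero v i
      rw [h, s0_zero, vl_zero] at h1
      exact (mul_eq_zero.1 h1.symm).resolve_left (by exact_mod_cast Nat.succ_ne_zero i)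
    have h1 : vl (s1 v) 0 = 0 := by
      have h1 := θ_one_zero v
      rw [h, s1_zero, vl_zero] at h1
      exact (mul_eq_zero.1 h1.symm).resolve_left (by exact_mod_cast Nat.succ_ne_zero (n + 1))
    have h2 : vl (s0 v) ∈ Wn n := by
      intro i hi
      rcases Nat.lt_or_ge (n + 1) i with h | h
      · exact vl_out (s0 v) h
      · have := h0 i
        rwa [vl_out (s1 v) (i := i + 1) (by omega), add_zero] at this
    refine ⟨mkV _ h2, tw_ext (fun i => rfl) (fun i => ?_)⟩
    cases i with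
    | zero => rw [inj'_one_zero, h1]
    | succ i =>
      rw [inj'_one_succ, vl_mkV]
      exact neg_eq_of_add_eq_zero_right (h0 i)
  · rintro ⟨c, rfl⟩
    refine tw_ext (fun i => ?_) (fun i => ?_)
    · rw [θ_zero, inj'_zero, inj'_one_succ, s0_zero, vl_zero]
      ring
    · rw [s1_zero, vl_zero]
      cases i with
      | zero => rw [θ_one_zero, inj'_one_zero, mul_zero]
      | succ i => rw [θ_one_succ, inj'_zero, inj'_one_succ]; ring

lemma exact_θ_prj (n : ℕ) : Function.Exact (V (n + 1)).θ (prj' n) := by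
  intro v
  constructor
  · intro h
    have h0 : ∀ i : ℕ, ((n : ℂ) + 1 - i) * vl (s0 v) i =
        ((i : ℂ) + 1) * vl (s1 v) (i + 1) := by
      intro i
      have h1 := prj'_val n v i
      rw [h, vl_zero] at h1
      exact sub_eq_zero.1 h1.symm
    have hi : ∀ i : ℕ, ((i : ℂ) + 1) ≠ 0 := fun i => by exact_mod_cast Nat.succ_ne_zero i
    have m0 : (fun i : ℕ => vl (s0 v) i / ((i : ℂ) + 1)) ∈ Wn (n + 1) := fun i hi => by
      change vl (s0 v) i / ((i : ℂ) + 1) = 0
      rw [vl_out (s0 v) hi, zero_div]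
    have m1 : (fun i : ℕ => if i = 0 then vl (s1 v) 0 / ((n : ℂ) + 1 + 1) else 0) ∈
        Wn (n + 1) := fun i hi => if_neg (by omega)
    refine ⟨mkT (mkV _ m0) (mkV _ m1), tw_ext (fun i => ?_) (fun i => ?_)⟩
    · rw [θ_zero, s0_mkT, s1_mkT, vl_mkV, vl_mkV]
      change ((i : ℂ) + 1) * (vl (s0 v) i / ((i : ℂ) + 1) +
        (if i + 1 = 0 then vl (s1 v) 0 / ((n : ℂ) + 1 + 1) else 0)) = _
      rw [if_neg (Nat.succ_ne_zero i), add_zero, mul_div_cancel₀ _ (hi i)]
    · cases i with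
      | zero =>
        rw [θ_one_zero, s1_mkT, vl_mkV]
        change (((n + 1 : ℕ) : ℂ) + 1) * (if (0 : ℕ) = 0 then
          vl (s1 v) 0 / ((n : ℂ) + 1 + 1) else 0) = _
        rw [if_pos rfl]
        push_cast
        have h3 : ((n : ℂ) + 1 + 1) ≠ 0 := by
          have := hi (n + 1)
          push_cast at this
          exact this
        rw [mul_div_cancel₀ _ h3]
      | succ i =>
        rw [θ_one_succ, s0_mkT, s1_mkT, vl_mkV, vl_mkV]
        change (((n + 1 : ℕ) : ℂ) - i) * (vl (s0 v) i / ((i : ℂ) + 1) +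
          (if i + 1 = 0 then vl (s1 v) 0 / ((n : ℂ) + 1 + 1) else 0)) = _
        rw [if_neg (Nat.succ_ne_zero i), add_zero]
        push_cast
        rw [← mul_div_assoc, h0 i, mul_div_assoc, mul_div_cancel₀ _ (hi i)]
  · rintro ⟨w, rfl⟩
    refine V_ext fun i => ?_
    rw [prj'_val, θ_zero, θ_one_succ, vl_zero]
    push_cast
    ring

lemma prj'_surjective (n : ℕ) : Function.Surjective (prj' n) := by
  intro c
  have m0 : (fun i : ℕ => vl c i / ((n : ℂ) + 1 - i)) ∈ Wn (n + 1) := fun i hi => by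
    change vl c i / ((n : ℂ) + 1 - i) = 0
    rw [vl_out c (by omega), zero_div]
  refine ⟨mkT (mkV _ m0) 0, V_ext fun i => ?_⟩
  rw [prj'_val, s0_mkT, s1_mkT, vl_mkV, vl_zero, mul_zero, sub_zero]
  by_cases h : i = n + 1
  · rw [vl_out c (by omega), zero_div, mul_zero]
  · refine mul_div_cancel₀ _ ?_
    intro h0
    apply h
    have : ((n + 1 : ℕ) : ℂ) = (i : ℂ) := by push_cast; exact sub_eq_zero.1 h0
    exact (Nat.cast_injective this).symm

/-- **B1** -/
theorem vn : VnStmt V := by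
  refine ⟨V_finite, V_nontrivial, ?_, fun n => ⟨inj' n, prj' n, inj'_hom n, prj'_hom n,
    inj'_injective n, exact_inj_θ n, exact_θ_prj n, prj'_surjective n⟩⟩
  have : ((V 0).θ : (V 0).tw.carrier → (V 0).tw.carrier) = id := funext θ_V0
  rw [this]
  exact Function.bijective_id

end Crest.Agent.R178B
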